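import Vale.Agent.P106.U.H864.Wbox
import Vale.Agent.P106.U.H404.ActX
import Vale.Agent.P106.U.H523.Best
import Vale.Agent.P106.U.H416.Val
import Vale.Agent.P106.U.H875.Mix
import Vale.Agent.P106.U.H20.Zoom

/-!
# P106 / U / H864 : the interface of END7 (`Env.Ax`, helper459) for the functional `XX` (helper864)

* `dfX` : the defect `XX(0) + β h + N D(h) - vh` of a law.
* `parX` : the constants.
* `ax_of` : `FIXA lam N (4 k) β'` and `PActX` give `E.Ax (parX ..) P0 (dfX ..) ((β' - β + ε) h + K)` for all environments with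
  `E.Supp P0`.
-/

set_option autoImplicit false

namespace Vale.Agent.P106.U.H864

open Finset Vale.Agent.P127 Vale.Agent.P127.Stk Vale.Agent.P127.U Vale.Agent.P127.U.CellD Vale.Agent.P106.W
open Vale.Agent.P106.K (Ry RyOk bl Bin)
open Vale.Agent.P122.C2 (fw fn)
open Vale.Agent.P127.U.Mic Vale.Agent.P127.U.JSB
open Vale.Agent.P106.U.End7
open Vale.Agent.P106.U.H523 (XX_mono_k XX_change)

/-- the constants -/
noncomputable def parX (lam β k c N β' ct Ka : ℝ) : Par :=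
  ⟨lam, β, k, c, 1 + N, ct, (β' + N - 2 - 4 * k - N * ct) * Real.log 2, Ka⟩

section

variable {Ω : Type} [Fintype Ω]

/-- the defect -/
noncomputable def dfX (c lam k N β : ℝ) (E : Env Ω) (P : Law Ω) : ℝ :=
  XX c lam k 0 P E.l E.t (fun _ => ()) (fun _ => (0, E.q)) E.L 0 + β * E.h * Real.log 2 +
    N * Dd P E.l E.t (fun _ => ()) E.h - E.vh lam P

theorem supp_mono {E : Env Ω} {P P0 : Law Ω} (hS : E.Supp P0) (h : ∀ ω, 0 < P.w ω → 0 < P0.w ω) : E.Supp P :=
  ⟨fun ω hω => hS.ok ω (h ω hω), hS.u2, hS.u1, hS.α8, hS.κ8, hS.p1, hS.v1, fun ω hω => hS.inn ω (h ω hω), hS.hL⟩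

theorem syOk_of {E : Env Ω} {P : Law Ω} (hS : E.Supp P) : SyOk P E.l E.t := fun ω hω => hS.ok ω hω

theorem lbOk_mono {c c' : ℝ} (h : c ≤ c') {L a : ℕ} {B : Cbx} {l : Ry} {t : ℝ} (hB : LbOk c L a B l t) :
    LbOk c' L a B l t := by
  obtain ⟨hs, h1, h2, h3⟩ := hB
  have hs' := hs
  obtain ⟨b, R, e1, e2, -, -⟩ := hs'
  have u2 : 0 ≤ B.u2 := by rw [e1]; positivity
  have u1 : 0 ≤ B.u1 := by rw [e2]; positivity
  refine ⟨hs, h1.trans h, h2.trans h, ?_⟩
  obtain ⟨g1, g2, g3, g4, g5⟩ := h3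
  exact ⟨fun k => (g1 k).trans (mul_le_mul_of_nonneg_right h u2), fun k => (g2 k).trans (mul_le_mul_of_nonneg_right h u2),
    g3.trans (mul_le_mul_of_nonneg_right h (le_max_of_le_left (sq_nonneg _))), g4.trans (mul_le_mul_of_nonneg_right h u1),
    g5.trans (mul_le_mul_of_nonneg_right h u1)⟩

/-- value of a label of deterministic shape -/
theorem val_shape (lam : ℝ) (P : Law Ω) (l : Ω → Ry) (t : Ω → ℝ) (a b R : ℕ) (W : Ω → Cbx)
    (h : ∀ ω, 0 < P.w ω → (W ω).u2 = (1 / 2 : ℝ) ^ b ∧ (W ω).u1 = (1 / 2 : ℝ) ^ R) :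
    val lam P l t (fun _ => ()) a W = Stk.hc P l (fun ω => (W ω, fl1 a (t ω))) +
      (3 * a + (3 + lam) * b + (1 - lam) * R) * Real.log 2 := by
  unfold val
  have e1 : P.ex (fun ω => (3 + lam) * Real.log (W ω).u2 + (1 - lam) * Real.log (W ω).u1) =
      -(((3 + lam) * b + (1 - lam) * R) * Real.log 2) := by
    rw [P.ex_congr (g := fun _ => -(((3 + lam) * b + (1 - lam) * R) * Real.log 2)) (fun ω hω => ?_), P.ex_const]
    obtain ⟨g1, g2⟩ := h ω hω
    rw [g1, g2, Real.log_pow, Real.log_pow, one_div, Real.log_inv]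
    ring
  have e2 : Stk.hc P l (fun ω => (W ω, fl1 a (t ω), ())) = Stk.hc P l (fun ω => (W ω, fl1 a (t ω))) := by
    refine le_antisymm (Stk.hc_mono_right P l ?_) (Stk.hc_mono_right P l ?_)
    · intro ω ω' _ _ e
      simp only [Prod.mk.injEq] at e ⊢
      exact ⟨e.1, e.2.1⟩
    · intro ω ω' _ _ e
      simp only [Prod.mk.injEq] at e ⊢
      exact ⟨e.1, e.2, trivial⟩
  rw [e1, e2]
  ring

theorem cq_unit {S A B : Type*} (P : Law Ω) (X : Ω → S) (l : Ω → A) (f : Ω → B) (x : S) (a : A) (b : B) :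
    cq P X (fun ω => (l ω, f ω, ())) x (a, b, ()) = cq P X (fun ω => (l ω, f ω)) x (a, b) := by
  have e1 : P.pr (fun ω => (X ω, (l ω, f ω, ()))) (x, (a, b, ())) = P.pr (fun ω => (X ω, (l ω, f ω))) (x, (a, b)) := by
    unfold Law.pr
    refine Finset.sum_congr ?_ fun _ _ => rfl
    ext ω
    simp only [mem_filter, mem_univ, true_and, Prod.mk.injEq, and_true]
  have e2 : P.pr (fun ω => (l ω, f ω, ())) (a, b, ()) = P.pr (fun ω => (l ω, f ω)) (a, b) := by
    unfold Law.pr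
    refine Finset.sum_congr ?_ fun _ _ => rfl
    ext ω
    simp only [mem_filter, mem_univ, true_and, Prod.mk.injEq, and_true]
  unfold cq
  rw [e1, e2]

/-- the deficit of the time is monotone -/
theorem Dd_mono {γ : Type} (P : Law Ω) (l : Ω → Ry) (t : Ω → ℝ) (C : Ω → γ) {a a' : ℕ} (h : a ≤ a') :
    Dd P l t C a ≤ Dd P l t C a' := by
  obtain ⟨b, rfl⟩ := Nat.exists_eq_add_of_le h
  have h1 := H404.Dd_sub P l t C h
  have h2 : Stk.hc P (fun ω => fl1 (a + b) (t ω)) (fun ω => (l ω, fl1 a (t ω), C ω)) ≤ Real.log ((2 ^ b : ℕ) : ℝ) := by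
    refine Stk.hc_le_log P _ _ (2 ^ b) fun ω _ =>
      ⟨Finset.Ico (2 ^ b * fl1 a (t ω)) (2 ^ b * fl1 a (t ω) + 2 ^ b), ?_, ?_⟩
    · rw [Int.card_Ico]
      have e1 : (2 ^ b * fl1 a (t ω) + 2 ^ b - 2 ^ b * fl1 a (t ω) : ℤ) = ((2 ^ b : ℕ) : ℤ) := by
        push_cast
        ring
      rw [e1, Int.toNat_natCast]
    · intro ω' _ e
      simp only [Prod.mk.injEq] at e
      rw [Finset.mem_Ico, ← e.2.1, fl1_add]
      have h3 : 0 ≤ fl1 b (tw a (t ω')) := Int.floor_nonneg.2 (mul_nonneg (by positivity) (tw_nonneg a _))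
      have h4 : fl1 b (tw a (t ω')) < 2 ^ b := by
        have h3 : (2 : ℝ) ^ b * tw a (t ω') < ((2 ^ b : ℤ) : ℝ) := by
          push_cast
          have := mul_lt_mul_of_pos_left (tw_lt a (t ω')) (by positivity : (0 : ℝ) < 2 ^ b)
          linarith
        exact Int.floor_lt.2 h3
      omega
  have h3 : Real.log ((2 ^ b : ℕ) : ℝ) = b * Real.log 2 := by
    push_cast
    rw [Real.log_pow]
  push_cast at h1
  rw [h3] at h2
  linarith

/-- the value of the end is at most the value of the box of the state -/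
theorem vh_le {lam : ℝ} {E : Env Ω} {P : Law Ω} {w : (ℤ × (Fin 3 → ℤ)) → Cbx}
    (hw : ∀ ω, 0 < P.w ω → (w (E.Zh E.h ω)).u2 = (1 / 2 : ℝ) ^ 0 ∧ (w (E.Zh E.h ω)).u1 = (1 / 2 : ℝ) ^ E.q) :
    E.vh lam P ≤ val lam P E.l E.t (fun _ => ()) E.h (fun ω => w (E.Zh E.h ω)) := by
  rw [val_shape lam P E.l E.t E.h 0 E.q _ hw]
  unfold Env.vh
  have h1 : Stk.hc P E.l (E.Zh E.h) ≤ Stk.hc P E.l (fun ω => (w (E.Zh E.h ω), fl1 E.h (E.t ω))) :=
    Stk.hc_mono_right P E.l fun ω ω' _ _ e => by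
      simp only [Prod.mk.injEq]
      exact ⟨congrArg w e, congrArg Prod.fst e⟩
  simp only [Nat.cast_zero, mul_zero, add_zero]
  linarith

end

/-- **the interface of END7** -/
theorem ax_of (hAct : PActX) {lam N k β β' ct c : ℝ} (h0 : 0 ≤ lam) (h1 : lam ≤ 1) (hk : 0 < k) (hN : 0 ≤ N)
    (hββ : β ≤ β') (hβ' : 0 ≤ β') (hF : FIXA lam N (4 * k) β') (hgain : 0 < β' + N - 2 - 4 * k - N * ct) (hc : 100 ≤ c) :
    ∀ ε : ℝ, 0 < ε → ∃ K : ℝ, 0 ≤ K ∧ ∀ (Ω : Type) [Fintype Ω] (E : Env Ω) (P0 : Law Ω), E.Supp P0 →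
      E.Ax (parX lam β k c N β' ct K) P0 (dfX c lam k N β E) ((β' - β + ε) * E.h * Real.log 2 + K) := by
  intro ε hε
  have hc1 : 1 ≤ c := by linarith
  have hc0 : 0 ≤ c := by linarith
  have hl2 : 0 < Real.log 2 := Real.log_pos (by norm_num)
  obtain ⟨K1, hK1, hA⟩ := hAct lam N k β β' ct h0 h1 hk hN hβ' hF hgain.le c hc1 ε hε
  obtain ⟨K2, hK2⟩ := hF c hc1 ε hε
  set K := K1 + |K2| + N * Real.log 2 with hK
  have hK0 : 0 ≤ K := by positivity
  have hK2' : K2 ≤ K := by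
    have := le_abs_self K2
    have : 0 ≤ N * Real.log 2 := by positivity
    linarith
  have hK2N : K2 + N * Real.log 2 ≤ K := by
    have := le_abs_self K2
    linarith
  have hK1' : K1 ≤ K := by
    have := abs_nonneg K2
    have : 0 ≤ N * Real.log 2 := by positivity
    linarith
  refine ⟨K, hK0, ?_⟩
  intro Ω _ E P0 hS0
  have hh : (0 : ℝ) ≤ E.h * Real.log 2 := by positivity
  have hν0 : 0 ≤ (β' - β + ε) * E.h * Real.log 2 + K := by
    have : 0 ≤ (β' - β + ε) * (E.h * Real.log 2) := mul_nonneg (by linarith) hh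
    nlinarith
  have hhL : E.h ≤ E.L := by have := hS0.hL; omega
  refine ⟨?_, ?_, ?_, ?_⟩
  · -- mixtures
    intro P hP δ e
    have m1 : XX c lam k 0 P E.l E.t (fun ω => ((), e ω)) (fun _ => (0, E.q)) E.L 0 =
        ∑ z ∈ img e, P.pr e z * XX c lam k 0 (P.cond e z) E.l E.t (fun _ => ()) (fun _ => (0, E.q)) E.L 0 :=
      H416.XX_mix (P := P) (C := fun _ => ()) e ⟨h0, h1⟩ hk.le le_rfl hc0 (Nat.zero_le _)
    have m2 : Dd P E.l E.t (fun ω => ((), e ω)) E.h =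
        ∑ z ∈ img e, P.pr e z * Dd (P.cond e z) E.l E.t (fun _ => ()) E.h := Dd_mix (C := fun _ => ()) e
    have m3 := hc_cond_sum P E.l (E.Zh E.h) e
    have s1 : ∑ z ∈ img e, P.pr e z = 1 := P.sum_pr_image e
    have n1 : XX c lam k 0 P E.l E.t (fun ω => ((), e ω)) (fun _ => (0, E.q)) E.L 0 ≤
        XX c lam k 0 P E.l E.t (fun _ => ()) (fun _ => (0, E.q)) E.L 0 :=
      H404.XX_anti hc0 hk.le le_rfl (Nat.zero_le _) (fun _ => ()) e
    have n2 : Dd P E.l E.t (fun ω => ((), e ω)) E.h ≤ Dd P E.l E.t (fun _ => ()) E.h +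
        Stk.hc P e (fun _ => ()) := by
      have g1 := Dd_pair_le (P := P) (l := E.l) (t := E.t) (C := fun _ => ()) (a := E.h) e
      have g2 : Stk.hc P e (fun ω => (E.l ω, ())) ≤ Stk.hc P e (fun _ => ()) :=
        Stk.hc_mono_right P e fun _ _ _ _ _ => rfl
      linarith
    have n3 : Stk.hc P E.l (E.Zh E.h) ≤ Stk.hc P E.l (fun ω => (E.Zh E.h ω, e ω)) + Stk.hc P e (fun _ => ()) := by
      have g1 := Stk.hc_le_add' P E.l e (E.Zh E.h)
      have g2 : Stk.hc P E.l (fun ω => (e ω, E.Zh E.h ω)) ≤ Stk.hc P E.l (fun ω => (E.Zh E.h ω, e ω)) :=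
        Stk.hc_mono_right P _ fun _ _ _ _ h => by
          simp only [Prod.mk.injEq] at h ⊢
          exact ⟨h.2, h.1⟩
      have g3 : Stk.hc P e (E.Zh E.h) ≤ Stk.hc P e (fun _ => ()) := Stk.hc_mono_right P e fun _ _ _ _ _ => rfl
      linarith
    have key : ∑ z ∈ img e, P.pr e z * dfX c lam k N β E (P.cond e z) =
        XX c lam k 0 P E.l E.t (fun ω => ((), e ω)) (fun _ => (0, E.q)) E.L 0 + β * E.h * Real.log 2 +
        N * Dd P E.l E.t (fun ω => ((), e ω)) E.h -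
        (Stk.hc P E.l (fun ω => (E.Zh E.h ω, e ω)) + (3 * E.h + (1 - lam) * E.q) * Real.log 2) := by
      rw [m1, m2, m3]
      unfold dfX Env.vh
      have : ∀ z, P.pr e z * (XX c lam k 0 (P.cond e z) E.l E.t (fun _ => ()) (fun _ => (0, E.q)) E.L 0 +
          β * E.h * Real.log 2 + N * Dd (P.cond e z) E.l E.t (fun _ => ()) E.h -
          (Stk.hc (P.cond e z) E.l (E.Zh E.h) + (3 * E.h + (1 - lam) * E.q) * Real.log 2)) =
          P.pr e z * XX c lam k 0 (P.cond e z) E.l E.t (fun _ => ()) (fun _ => (0, E.q)) E.L 0 +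
          N * (P.pr e z * Dd (P.cond e z) E.l E.t (fun _ => ()) E.h) -
          P.pr e z * Stk.hc (P.cond e z) E.l (E.Zh E.h) +
          P.pr e z * (β * E.h * Real.log 2 - (3 * E.h + (1 - lam) * E.q) * Real.log 2) := fun z => by ring
      simp only [this]
      rw [Finset.sum_add_distrib, Finset.sum_sub_distrib, Finset.sum_add_distrib, ← Finset.mul_sum, ← Finset.sum_mul, s1]
      ring
    rw [key]
    have : N * Dd P E.l E.t (fun ω => ((), e ω)) E.h ≤ N * Dd P E.l E.t (fun _ => ()) E.h +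
        N * Stk.hc P e (fun _ => ()) := by
      have := mul_le_mul_of_nonneg_left n2 hN
      linarith
    show _ ≤ dfX c lam k N β E P + (1 + N) * Stk.hc P e (fun _ => ()) + _
    unfold dfX Env.vh
    linarith
  · -- lower bound
    intro P hP
    have hS := supp_mono hS0 hP
    obtain ⟨w, hw⟩ := exists_w hS
    have g0 := vh_le (lam := lam) (E := E) (P := P) (w := w) fun ω hω => (hw ω hω).2
    have g1 := hK2 Ω Unit P E.l E.t (fun _ => ()) E.L E.h (0, E.q) (fun ω => w (E.Zh E.h ω)) hhL (syOk_of hS)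
      fun ω hω => ⟨lbOk_mono hc (hw ω hω).1, (hw ω hω).2⟩
    have g2 := XX_mono_k (c := c) h0 h1 hk.le (by linarith : k ≤ 4 * k) hc1 P E.l E.t (fun _ => ())
      (fun _ => (0, E.q)) (Nat.zero_le E.L)
    unfold dfX
    nlinarith
  · -- labels
    intro P hP a b R hah hbR haR Ω' _ P' π A g1 g2
    have hS := supp_mono hS0 hP
    have hlog := hl2.le
    have hSy := syOk_of hS
    have hSy' : SyOk P' (fun ω => E.l (π ω)) (fun ω => E.t (π ω)) := by
      intro ω hω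
      refine hSy (π ω) ?_
      rw [← g1]
      exact P'.pr_pos π hω
    have hL : ∀ ω, 0 < P'.w ω → LbOk c E.L a (A ω) (E.l (π ω)) (E.t (π ω)) ∧ (A ω).u2 = (1 / 2 : ℝ) ^ b ∧
        (A ω).u1 = (1 / 2 : ℝ) ^ R := by
      intro ω hω
      obtain ⟨a1, a2, a3, a4, a5⟩ := g2 ω hω
      exact ⟨⟨⟨b, R, a1, a2, hbR, haR⟩, a3, a4, a5⟩, a1, a2⟩
    have f1 := hK2 Ω' Unit P' (fun ω => E.l (π ω)) (fun ω => E.t (π ω)) (fun _ => ()) E.L a (b, R) A
      (by omega) hSy' hL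
    have f2 := XX_mono_k (c := c) h0 h1 hk.le (by linarith : k ≤ 4 * k) hc1 P' (fun ω => E.l (π ω))
      (fun ω => E.t (π ω)) (fun _ => ()) (fun _ => (b, R)) (Nat.zero_le E.L)
    have f3 := H416.XX_ext (c := c) (lam := lam) (k := k) (La := 0) (l := E.l) (t := E.t) (C := fun _ => ())
      (e := fun _ => (b, R)) (L := E.L) (a := 0) g1
    have f4 := XX_change (c := c) h0 h1 hk.le (le_refl k) hc1 (P := P) (l := E.l) (t := E.t) (C := fun _ => ())
      (Nat.zero_le E.L) (P' := P) (π := id) (Stk.pr_id P) (fun _ => ()) (b, R) (0, E.q)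
    have f5 : XX c lam k 0 P E.l E.t (fun _ => ()) (fun _ => (b, R)) E.L 0 ≤
        XX c lam k 0 P (fun ω => E.l (id ω)) (fun ω => E.t (id ω)) (fun ω => ((fun _ => ()) (id ω), (fun _ => ()) ω))
          (fun _ => (b, R)) E.L 0 := by
      exact H404.XX_anti' hc0 hk.le le_rfl (Nat.zero_le _) _ _ fun _ _ _ _ _ => rfl
    have f6 := Dd_ext (l := E.l) (t := E.t) (C := fun _ => ()) (a := a) g1
    have f7 := val_shape lam P' (fun ω => E.l (π ω)) (fun ω => E.t (π ω)) a b R A fun ω hω => (hL ω hω).2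
    -- monotonicity of the deficit
    have f8 : Dd P E.l E.t (fun _ => ()) a ≤ Dd P E.l E.t (fun _ => ()) E.h := Dd_mono P E.l E.t _ hah
    have f9 := mul_le_mul_of_nonneg_left f8 hN
    rw [f6] at f1
    rw [f3] at f2
    have f10 : ((0 : ℕ) : ℝ) = 0 := Nat.cast_zero
    have f11 : |((b, R).1 : ℝ) - ((0, E.q) : ℕ × ℕ).1| = b := by
      show |(b : ℝ) - ((0 : ℕ) : ℝ)| = b
      rw [f10, sub_zero, abs_of_nonneg (Nat.cast_nonneg _)]
    have f12 : |((b, R).2 : ℝ) - ((0, E.q) : ℕ × ℕ).2| = |(R : ℝ) - E.q| := rfl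
    rw [f11, f12] at f4
    have f13 : (a : ℝ) ≤ E.h := by exact_mod_cast hah
    have f14 : (β' + ε) * a * Real.log 2 ≤ β * a * Real.log 2 + (β' - β + ε) * E.h * Real.log 2 := by
      have : (β' - β + ε) * (a * Real.log 2) ≤ (β' - β + ε) * (E.h * Real.log 2) :=
        mul_le_mul_of_nonneg_left (mul_le_mul_of_nonneg_right f13 hlog) (by linarith)
      nlinarith
    show Stk.hc P' (fun ω => E.l (π ω)) (fun ω => (A ω, fl1 a (E.t (π ω)))) +
        (3 * a + (3 + lam) * b + (1 - lam) * R) * Real.log 2 ≤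
      E.vh lam P - β * (E.h - a) * Real.log 2 + k * (b + |(R : ℝ) - E.q|) * Real.log 2 +
      (dfX c lam k N β E P + ((β' - β + ε) * E.h * Real.log 2 + K))
    rw [f7] at f1
    unfold dfX
    linarith
  · -- activity
    intro P hP m a0 n hm hmn
    have hS := supp_mono hS0 hP
    obtain ⟨w, hw⟩ := exists_w hS
    have g0 := vh_le (lam := lam) (E := E) (P := P) (w := w) fun ω hω => (hw ω hω).2
    have g1 := hA (dfX c lam k N β E P) Ω Unit P E.l E.t (fun _ => ()) E.L E.h (0, E.q) (fun ω => w (E.Zh E.h ω))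
      (syOk_of hS) hhL (fun ω hω => ⟨lbOk_mono hc (hw ω hω).1, (hw ω hω).2⟩) (by unfold dfX; linarith) m a0 n hmn
    have hm0 : (0 : ℝ) < m := by exact_mod_cast hm
    show _ ≤ _ / ((β' + N - 2 - 4 * k - N * ct) * Real.log 2 * m)
    rw [le_div_iff₀ (by positivity)]
    have g2 : ∑ i ∈ range n, prE P (fun ω => (2 : ℝ) ^ (-(ct * m)) <
        cq P (fun ω => fl1 (a0 + m * (i + 1)) (E.t ω)) (fun ω => (E.l ω, fl1 (a0 + m * i) (E.t ω)))
        (fl1 (a0 + m * (i + 1)) (E.t ω)) (E.l ω, fl1 (a0 + m * i) (E.t ω))) ≤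
        ∑ i ∈ range n, inac P E.l E.t (fun _ => ()) (a0 + m * i) (a0 + m * (i + 1)) (ct * m) := by
      refine Finset.sum_le_sum fun i _ => ?_
      refine H404.prE_le_prE P fun ω _ h => ?_
      rw [cq_unit]
      exact h.le
    have g3 := mul_le_mul_of_nonneg_left g2 (show 0 ≤ (β' + N - 2 - 4 * k - N * ct) * (m * Real.log 2) by positivity)
    have g4 : (∑ i ∈ range n, prE P (fun ω => (2 : ℝ) ^ (-(ct * m)) <
        cq P (fun ω => fl1 (a0 + m * (i + 1)) (E.t ω)) (fun ω => (E.l ω, fl1 (a0 + m * i) (E.t ω)))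
        (fl1 (a0 + m * (i + 1)) (E.t ω)) (E.l ω, fl1 (a0 + m * i) (E.t ω)))) *
        ((β' + N - 2 - 4 * k - N * ct) * Real.log 2 * m) =
        (β' + N - 2 - 4 * k - N * ct) * (m * Real.log 2) * ∑ i ∈ range n, prE P (fun ω => (2 : ℝ) ^ (-(ct * m)) <
        cq P (fun ω => fl1 (a0 + m * (i + 1)) (E.t ω)) (fun ω => (E.l ω, fl1 (a0 + m * i) (E.t ω)))
        (fl1 (a0 + m * (i + 1)) (E.t ω)) (E.l ω, fl1 (a0 + m * i) (E.t ω))) := by ring
    have g5 : K1 * n ≤ K * n := mul_le_mul_of_nonneg_right hK1' (Nat.cast_nonneg _)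
    show (∑ i ∈ range n, prE P (fun ω => (2 : ℝ) ^ (-(ct * m)) < _)) * _ ≤ dfX c lam k N β E P +
      ((β' - β + ε) * E.h * Real.log 2 + K) + K * n
    rw [g4]
    linarith

end Vale.Agent.P106.U.H864
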