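import Vale.Agent.P106.U.H459.End7Defs
import Vale.Agent.P127.Stk.LibEnt

/-!
# P106 / U / H864 : monotonicity of the interface `Env.Ax` of END7 in the constants (helper864)

* `bin_mono`, `lab_mono`, `act_mono`
* `ax_mono` : smaller rate and class, larger price, letter price and constant, smaller gain.
-/

set_option autoImplicit false

namespace Vale.Agent.P106.U.H864

open Finset Vale.Agent.P127 Vale.Agent.P127.Stk Vale.Agent.P127.U.CellD Vale.Agent.P127.U.Mic Vale.Agent.P106.W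
open Vale.Agent.P106.K (Ry RyOk bl Bin)
open Vale.Agent.P106.U.End7

theorem bin_mono {c c' : ℝ} (h : c ≤ c') {B : Cbx} {t : ℝ} {l : Ry} (h1 : 0 ≤ B.u1) (h2 : 0 ≤ B.u2)
    (hB : Bin c B t l) : Bin c' B t l := by
  obtain ⟨g1, g2, g3, g4, g5⟩ := hB
  exact ⟨fun k => (g1 k).trans (mul_le_mul_of_nonneg_right h h2),
    fun k => (g2 k).trans (mul_le_mul_of_nonneg_right h h2),
    g3.trans (mul_le_mul_of_nonneg_right h (le_max_of_le_left (sq_nonneg _))),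
    g4.trans (mul_le_mul_of_nonneg_right h h1), g5.trans (mul_le_mul_of_nonneg_right h h1)⟩

section

variable {Ω : Type} [Fintype Ω] {E : Env Ω} {p p' : Par}

theorem lab_mono (hl : p'.lam = p.lam) (hβ : p'.β ≤ p.β) (hk : p.k ≤ p'.k) (hc : p'.c ≤ p.c)
    {P : Law Ω} {μ : ℝ} (h : E.Lab p P μ) : E.Lab p' P μ := by
  intro a b R ha hbR hL Ω' _ P' π A hP' hA
  have h1 := h a b R ha hbR hL Ω' ‹_› P' π A hP' (fun ω hω => by
    obtain ⟨e1, e2, e3, e4, e5⟩ := hA ω hω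
    have u2 : 0 ≤ (A ω).u2 := by rw [e1]; positivity
    have u1 : 0 ≤ (A ω).u1 := by rw [e2]; positivity
    exact ⟨e1, e2, e3.trans hc, e4.trans hc, bin_mono hc u1 u2 e5⟩)
  have hl2 : 0 ≤ Real.log 2 := Real.log_nonneg (by norm_num)
  have ha' : (0 : ℝ) ≤ (E.h : ℝ) - a := sub_nonneg.2 (by exact_mod_cast ha)
  have m1 : p'.β * ((E.h : ℝ) - a) * Real.log 2 ≤ p.β * ((E.h : ℝ) - a) * Real.log 2 :=
    mul_le_mul_of_nonneg_right (mul_le_mul_of_nonneg_right hβ ha') hl2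
  have m2 : p.k * ((b : ℝ) + |(R : ℝ) - E.q|) * Real.log 2 ≤ p'.k * ((b : ℝ) + |(R : ℝ) - E.q|) * Real.log 2 :=
    mul_le_mul_of_nonneg_right (mul_le_mul_of_nonneg_right hk (by positivity)) hl2
  rw [hl]
  linarith

theorem act_mono (hct : p'.ct = p.ct) (hc1 : 0 < p'.c1) (hc1' : p'.c1 ≤ p.c1) (hKa : 0 ≤ p.Ka)
    (hKa' : p.Ka ≤ p'.Ka) {P : Law Ω} {μ : ℝ} (hμ : 0 ≤ μ) (h : E.Act p P μ) : E.Act p' P μ := by
  intro m a0 n hm hn
  have h1 := h m a0 n hm hn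
  rw [hct]
  refine h1.trans ?_
  have hm' : (0 : ℝ) < m := by exact_mod_cast hm
  have hn' : (0 : ℝ) ≤ n := Nat.cast_nonneg n
  have e1 : 0 ≤ μ + p'.Ka * n := add_nonneg hμ (mul_nonneg (hKa.trans hKa') hn')
  have e2 : μ + p.Ka * n ≤ μ + p'.Ka * n := by
    have := mul_le_mul_of_nonneg_right hKa' hn'
    linarith
  exact div_le_div₀ e1 e2 (mul_pos hc1 hm') (mul_le_mul_of_nonneg_right hc1' hm'.le)

/-- **monotonicity of the interface of END7** -/
theorem ax_mono {P0 : Law Ω} {df : Law Ω → ℝ} {ν : ℝ} (hl : p'.lam = p.lam) (hβ : p'.β ≤ p.β) (hk : p.k ≤ p'.k)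
    (hc : p'.c ≤ p.c) (hN : p.cN ≤ p'.cN) (hct : p'.ct = p.ct) (hc1 : 0 < p'.c1 ∧ p'.c1 ≤ p.c1)
    (hKa : 0 ≤ p.Ka ∧ p.Ka ≤ p'.Ka) (h : E.Ax p P0 df ν) : E.Ax p' P0 df ν where
  mix := by
    intro P hP ε e
    refine (h.mix P hP ε e).trans ?_
    have := mul_le_mul_of_nonneg_right hN (Stk.hc_nonneg P e (fun _ => ()))
    linarith
  low := h.low
  lab := fun P hP => lab_mono hl hβ hk hc (h.lab P hP)
  act := fun P hP => act_mono hct hc1.1 hc1.2 hKa.1 hKa.2 (by have := h.low P hP; linarith) (h.act P hP)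

end

end Vale.Agent.P106.U.H864
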