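import Vale.Agent.P127.Stk.LibEnt

/-!
# P106 / U / H864 : [LAGW], the joint words of the nested true prefixes (note 19650 (2))

Finite law `P`, levels `a < n`, caps `b ≤ B`, revealed depths `ξ b a ω ≤ XI a` (`XI` deterministic), monotone in the cap,
and exactly constant along the levels while the lag `XI a - ξ b a` is at least `D`.  Then the word `(ξ (b+1) a)_a` costs given
the word `(ξ b a)_a` only `ε n` on average over the caps.
-/

set_option autoImplicit false

namespace Vale.Agent.P106.U.H864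

open Finset Vale.Agent.P127 Vale.Agent.P127.Stk
open Vale.Agent.P127.Law (ind ind_of ind_not)

/-! ### one step -/

/-- polynomial tail: `∑_{x > y} 1 / ((x - y) (x - y + 1)) ≤ 1` -/
theorem tail_range (y M : ℕ) :
    ∑ x ∈ range M, (if y < x then 1 / (((x : ℝ) - y) * ((x : ℝ) - y + 1)) else 0) ≤
      if y < M then 1 - 1 / ((M : ℝ) - y) else 0 := by
  induction M with
  | zero => simp
  | succ M ih =>
    rw [sum_range_succ]
    rcases lt_trichotomy y M with h | h | h
    · have hM : (0 : ℝ) < (M : ℝ) - y := by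
        have : (y : ℝ) < M := by exact_mod_cast h
        linarith
      rw [if_pos h, if_pos (by omega)]
      rw [if_pos h] at ih
      push_cast
      have e : 1 - 1 / ((M : ℝ) + 1 - y) = 1 - 1 / ((M : ℝ) - y) + 1 / (((M : ℝ) - y) * ((M : ℝ) - y + 1)) := by
        have h1 : ((M : ℝ) + 1 - y) ≠ 0 := by linarith
        have h2 : ((M : ℝ) - y + 1) ≠ 0 := by linarith
        have h3 : ((M : ℝ) - y) ≠ 0 := hM.ne'
        field_simp
        ring
      rw [e]
      linarith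
    · subst h
      rw [if_neg (lt_irrefl _), if_pos (by omega)]
      rw [if_neg (lt_irrefl _)] at ih
      push_cast
      have : (1 : ℝ) - 1 / ((y : ℝ) + 1 - y) = 0 := by
        have : ((y : ℝ) + 1 - y) = 1 := by ring
        rw [this]; norm_num
      rw [this]
      linarith
    · rw [if_neg (by omega), if_neg (by omega)]
      rw [if_neg (by omega)] at ih
      linarith

theorem tail_le (y : ℕ) (F : Finset ℕ) :
    ∑ x ∈ F, (if y < x then 1 / (((x : ℝ) - y) * ((x : ℝ) - y + 1)) else 0) ≤ 1 := by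
  have nn : ∀ x : ℕ, 0 ≤ (if y < x then 1 / (((x : ℝ) - y) * ((x : ℝ) - y + 1)) else 0) := by
    intro x
    split_ifs with h
    · have : (y : ℝ) < x := by exact_mod_cast h
      have : 0 < (x : ℝ) - y := by linarith
      positivity
    · exact le_rfl
  have h1 : F ⊆ range (F.sup id + 1) := by
    intro x hx
    rw [mem_range]
    have : x ≤ F.sup id := Finset.le_sup (f := id) hx
    omega
  refine (sum_le_sum_of_subset_of_nonneg h1 fun x _ _ => nn x).trans ((tail_range y _).trans ?_)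
  split_ifs with h
  · have : (0 : ℝ) < ((F.sup id + 1 : ℕ) : ℝ) - y := by
      have : (y : ℝ) < ((F.sup id + 1 : ℕ) : ℝ) := by exact_mod_cast h
      linarith
    have := one_div_pos.2 this
    linarith
  · exact zero_le_one

/-- the kernel of one step: flag, predicted value -/
noncomputable def kq (p : ℝ) (x : ℕ) (z : Bool × ℕ) : ℝ :=
  if z.1 then (if x = z.2 then 1 - p else p * (if z.2 < x then 1 / (((x : ℝ) - z.2) * ((x : ℝ) - z.2 + 1)) else 0))
  else if x = z.2 then 1 else 0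

theorem kq_nn {p : ℝ} (hp : 0 < p) (hp2 : p ≤ 1 / 2) (x : ℕ) (z : Bool × ℕ) : 0 ≤ kq p x z := by
  unfold kq
  split_ifs with h1 h2 h3 h4
  · linarith
  · have : (z.2 : ℝ) < x := by exact_mod_cast h3
    have : 0 < (x : ℝ) - z.2 := by linarith
    positivity
  · simp
  · exact zero_le_one
  · exact le_rfl

theorem kq_sum {p : ℝ} (hp : 0 < p) (hp2 : p ≤ 1 / 2) (z : Bool × ℕ) (F : Finset ℕ) :
    ∑ x ∈ F, kq p x z ≤ 1 := by
  obtain ⟨f, y⟩ := z
  cases f with
  | false =>
    simp only [kq, Bool.false_eq_true, if_false]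
    rw [Finset.sum_ite_eq']
    split_ifs <;> norm_num
  | true =>
    simp only [kq, if_true]
    have h1 : ∀ x ∈ F, (if x = y then 1 - p else p * (if y < x then 1 / (((x : ℝ) - y) * ((x : ℝ) - y + 1)) else 0)) ≤
        (if x = y then 1 - p else 0) + p * (if y < x then 1 / (((x : ℝ) - y) * ((x : ℝ) - y + 1)) else 0) := by
      intro x _
      split_ifs with h2 h3
      · omega
      · simp
      · simp
      · simp
    refine (sum_le_sum h1).trans ?_
    rw [sum_add_distrib, ← mul_sum, Finset.sum_ite_eq']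
    have := mul_le_mul_of_nonneg_left (tail_le y F) hp.le
    split_ifs <;> linarith

/-- one step: on the flag `f`, `X ≥ Y` with probability of `X ≠ Y` small; off the flag `X = Y` -/
theorem step_le {Ω : Type} [Fintype Ω] {U : Type*} (P : Law Ω) (X : Ω → ℕ) (Z : Ω → Bool × ℕ) (V : Ω → U)
    (hV : Fn P Z V) {p : ℝ} (hp : 0 < p) (hp2 : p ≤ 1 / 2) (T0 : ℕ)
    (h0 : ∀ ω, 0 < P.w ω → (Z ω).1 = false → X ω = (Z ω).2) (h1 : ∀ ω, 0 < P.w ω → (Z ω).2 ≤ X ω) :
    hc P X V ≤ 2 * p + P.ex (fun ω => ind (X ω ≠ (Z ω).2) * (Real.log (1 / p) + 2 * Real.log (1 + T0) +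
      2 / (1 + T0) * ((X ω : ℝ) - (Z ω).2))) := by
  have g := P.gibbs_cond X Z (kq p) (fun x y => kq_nn hp hp2 x y) (fun y F => kq_sum hp hp2 y F) (by
    intro ω hω
    unfold kq
    split_ifs with a1 a2 a3 a4
    · linarith
    · have : ((Z ω).2 : ℝ) < X ω := by exact_mod_cast a3
      have : 0 < (X ω : ℝ) - (Z ω).2 := by linarith
      positivity
    · have := h1 ω hω
      omega
    · exact zero_lt_one
    · exact absurd (h0 ω hω (by simpa using a1)) a4)
  have g' : hc P X Z ≤ P.ex (fun ω => - Real.log (kq p (X ω) (Z ω))) := g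
  refine (hc_mono_right P X hV).trans (g'.trans ?_)
  rw [← P.ex_const (2 * p), ← P.ex_add]
  refine P.ex_mono fun ω hω => ?_
  have l1 : -Real.log (1 - p) ≤ 2 * p := by
    have h3 : (0 : ℝ) < 1 - p := by linarith
    have h4 := Real.log_le_sub_one_of_pos (inv_pos.2 h3)
    rw [Real.log_inv] at h4
    have h5 : (1 - p)⁻¹ ≤ 1 + 2 * p := by
      rw [inv_le_comm₀ h3 (by linarith), inv_eq_one_div, div_le_iff₀ (by linarith)]
      nlinarith
    linarith
  by_cases hX : X ω = (Z ω).2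
  · rw [ind_not (not_not.2 hX), zero_mul, add_zero]
    unfold kq
    rw [if_pos hX, if_pos hX]
    split_ifs
    · exact l1
    · simp only [Real.log_one, neg_zero]; linarith
  · rw [ind_of hX, one_mul]
    have hf : (Z ω).1 = true := by
      by_contra h
      exact hX (h0 ω hω (by simpa using h))
    have hlt : (Z ω).2 < X ω := lt_of_le_of_ne (h1 ω hω) (Ne.symm hX)
    unfold kq
    rw [if_pos hf, if_neg hX, if_pos hlt]
    set Δ : ℝ := (X ω : ℝ) - (Z ω).2 with hΔ
    have hΔ1 : 1 ≤ Δ := by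
      have : ((Z ω).2 : ℝ) + 1 ≤ X ω := by exact_mod_cast hlt
      rw [hΔ]; linarith
    have hT : (0 : ℝ) < 1 + T0 := by positivity
    have e1 : -Real.log (p * (1 / (Δ * (Δ + 1)))) = Real.log (1 / p) + (Real.log Δ + Real.log (Δ + 1)) := by
      rw [Real.log_mul hp.ne' (by positivity), one_div, one_div, Real.log_inv, Real.log_inv,
        Real.log_mul (by positivity) (by positivity)]
      ring
    rw [e1]
    have e2 : Real.log Δ ≤ Real.log (Δ + 1) := Real.log_le_log (by positivity) (by linarith)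
    have e3 : Real.log (Δ + 1) ≤ Real.log (1 + T0) + 1 / (1 + T0) * Δ := by
      have h6 := Real.log_le_sub_one_of_pos (show 0 < (Δ + 1) / (1 + T0) by positivity)
      rw [Real.log_div (by positivity) hT.ne'] at h6
      have h7 : (Δ + 1) / (1 + (T0 : ℝ)) - 1 ≤ 1 / (1 + T0) * Δ := by
        rw [div_sub_one hT.ne', div_le_iff₀ hT]
        have : 1 / (1 + (T0 : ℝ)) * Δ * (1 + T0) = Δ := by field_simp
        rw [this]
        have : (0 : ℝ) ≤ T0 := Nat.cast_nonneg _
        linarith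
      linarith
    have e4 : 2 / (1 + (T0 : ℝ)) * Δ = 2 * (1 / (1 + T0) * Δ) := by ring
    rw [e4]
    linarith

theorem ex_sum {Ω : Type} [Fintype Ω] (P : Law Ω) {ι : Type*} (s : Finset ι) (f : ι → Ω → ℝ) :
    P.ex (fun ω => ∑ i ∈ s, f i ω) = ∑ i ∈ s, P.ex (f i) := by
  unfold Law.ex
  rw [Finset.sum_comm]
  exact Finset.sum_congr rfl fun ω _ => by rw [Finset.mul_sum]

theorem ind_nonneg (p : Prop) : 0 ≤ ind p := by
  by_cases h : p
  · rw [ind_of h]; exact zero_le_one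
  · rw [ind_not h]

theorem ind_le_one (p : Prop) : ind p ≤ 1 := by
  by_cases h : p
  · rw [ind_of h]
  · rw [ind_not h]; exact zero_le_one

/-- chain rule for a word -/
theorem word_chain {Ω : Type} [Fintype Ω] {U : Type*} (P : Law Ω) (X : ℕ → Ω → ℕ) (C : Ω → U) (n : ℕ) :
    hc P (fun ω (i : Fin (n + 1)) => X i ω) C ≤ hc P (X 0) C + ∑ a ∈ range n, hc P (X (a + 1)) (fun ω => (X a ω, C ω)) := by
  induction n with
  | zero =>
    simp only [range_zero, sum_empty, add_zero]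
    refine hc_mono_left P fun ω ω' _ _ e => ?_
    simp only [Prod.mk.injEq] at e
    funext i
    have : (i : ℕ) = 0 := by omega
    rw [this]
    exact e.1
  | succ n ih =>
    rw [sum_range_succ]
    have h1 : hc P (fun ω (i : Fin (n + 2)) => X i ω) C ≤
        hc P (fun ω => ((fun i : Fin (n + 1) => X i ω), X (n + 1) ω)) C := by
      refine hc_mono_left P fun ω ω' _ _ e => ?_
      simp only [Prod.mk.injEq] at e
      funext i
      rcases Nat.lt_succ_iff_lt_or_eq.1 i.2 with h | h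
      · exact congrFun e.1.1 ⟨i, h⟩
      · rw [h]; exact e.1.2
    rw [hc_pair] at h1
    have h2 : hc P (X (n + 1)) (fun ω => ((fun i : Fin (n + 1) => X i ω), C ω)) ≤
        hc P (X (n + 1)) (fun ω => (X n ω, C ω)) := by
      refine hc_mono_right P _ fun ω ω' _ _ e => ?_
      simp only [Prod.mk.injEq] at e ⊢
      exact ⟨congrFun e.1 ⟨n, by omega⟩, e.2⟩
    linarith

/-! ### the objects -/

/-- revealed depths `ξ b a`, lag rule with tolerance `D` -/
structure Lag {Ω : Type} [Fintype Ω] (P : Law Ω) (n B D : ℕ) (XI : ℕ → ℕ) (ξ : ℕ → ℕ → Ω → ℕ) : Prop where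
  le : ∀ b ≤ B, ∀ a < n, ∀ ω, 0 < P.w ω → ξ b a ω ≤ XI a
  mono : ∀ b < B, ∀ a < n, ∀ ω, 0 < P.w ω → ξ b a ω ≤ ξ (b + 1) a ω
  lag : ∀ b ≤ B, ∀ a, a + 1 < n → ∀ ω, 0 < P.w ω → ξ b a ω + D ≤ XI a → ξ b (a + 1) ω = ξ b a ω
  desc : ∀ a, a + 1 < n → XI a ≤ XI (a + 1) + 1

/-- the word of the cap `b` -/
def wd {Ω : Type} (n : ℕ) (ξ : ℕ → ℕ → Ω → ℕ) (b : ℕ) (ω : Ω) (i : Fin n) : ℕ := ξ b i ω

section

variable {Ω : Type} [Fintype Ω] {P : Law Ω} {n B D : ℕ} {XI : ℕ → ℕ} {ξ : ℕ → ℕ → Ω → ℕ}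

/-- slow descents: the number of jumps of the lag from `< D` to `≥ D1` -/
theorem up_le (g : ℕ → ℕ) (N D D1 : ℕ) (hD : D < D1) (hg : ∀ c, c + 1 < N → D ≤ g c → g c ≤ g (c + 1) + 1) :
    ((D1 : ℝ) - D) * ∑ c ∈ range (N - 1), ind (g c < D ∧ D1 ≤ g (c + 1)) ≤ N + ((D1 : ℝ) - D) := by
  classical
  set ψ : ℕ → ℝ := fun c => max (min (g c : ℝ) D1 - D) 0 with hψ
  have hDr : (D : ℝ) < D1 := by exact_mod_cast hD
  have key : ∀ c ∈ range (N - 1), ((D1 : ℝ) - D) * ind (g c < D ∧ D1 ≤ g (c + 1)) - 1 ≤ ψ (c + 1) - ψ c := by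
    intro c hc
    rw [mem_range] at hc
    by_cases h : g c < D ∧ D1 ≤ g (c + 1)
    · rw [ind_of h, mul_one]
      have h1 : (g c : ℝ) < D := by exact_mod_cast h.1
      have h2 : (D1 : ℝ) ≤ g (c + 1) := by exact_mod_cast h.2
      have e1 : ψ c = 0 := by
        simp only [hψ]
        exact max_eq_right (by have := min_le_left (g c : ℝ) (D1 : ℝ); linarith)
      have e2 : (D1 : ℝ) - D ≤ ψ (c + 1) := by
        simp only [hψ]
        rw [min_eq_right h2]
        exact le_max_left _ _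
      rw [e1]
      linarith
    · rw [ind_not h, mul_zero]
      rcases lt_or_ge (g c) D with h1 | h1
      · have h1 : (g c : ℝ) < D := by exact_mod_cast h1
        have e1 : ψ c = 0 := by
          simp only [hψ]
          exact max_eq_right (by have := min_le_left (g c : ℝ) (D1 : ℝ); linarith)
        have e2 : 0 ≤ ψ (c + 1) := le_max_right _ _
        rw [e1]
        linarith
      · have h2 := hg c (by omega) h1
        have h3 : (g c : ℝ) ≤ g (c + 1) + 1 := by exact_mod_cast h2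
        have e : ψ c ≤ ψ (c + 1) + 1 := by
          simp only [hψ]
          refine max_le ?_ ?_
          · have a1 : min (g c : ℝ) D1 - 1 ≤ min (g (c + 1) : ℝ) D1 := by
              refine le_min ?_ ?_
              · have := min_le_left (g c : ℝ) (D1 : ℝ); linarith
              · have := min_le_right (g c : ℝ) (D1 : ℝ); linarith
            have a2 := le_max_left (min (g (c + 1) : ℝ) D1 - D) 0
            linarith
          · have a2 := le_max_right (min (g (c + 1) : ℝ) D1 - D) 0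
            linarith
        linarith
  have hs := sum_le_sum key
  rw [sum_sub_distrib, ← mul_sum, sum_range_sub] at hs
  simp only [sum_const, card_range, nsmul_eq_mul, mul_one] at hs
  have b1 : ψ (N - 1) ≤ (D1 : ℝ) - D := by
    simp only [hψ]
    exact max_le (by have := min_le_right (g (N - 1) : ℝ) (D1 : ℝ); linarith) (by linarith)
  have b2 : 0 ≤ ψ 0 := le_max_right _ _
  have b3 : ((N - 1 : ℕ) : ℝ) ≤ N := by exact_mod_cast Nat.sub_le _ _
  linarith

/-- changes at small lag: at most `D1` caps for each level -/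
theorem low_le (x : ℕ → ℕ) (X B D1 : ℕ) (h1 : ∀ b ≤ B, x b ≤ X) (h2 : ∀ b < B, x b ≤ x (b + 1)) :
    ∑ b ∈ range B, ind (x (b + 1) ≠ x b ∧ X < x (b + 1) + D1) ≤ (D1 : ℝ) := by
  classical
  set ψ : ℕ → ℝ := fun b => min ((X : ℝ) - x b) D1 with hψ
  have key : ∀ b ∈ range B, ind (x (b + 1) ≠ x b ∧ X < x (b + 1) + D1) ≤ ψ b - ψ (b + 1) := by
    intro b hb
    rw [mem_range] at hb
    have h3 : (x b : ℝ) ≤ x (b + 1) := by exact_mod_cast h2 b hb
    by_cases h : x (b + 1) ≠ x b ∧ X < x (b + 1) + D1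
    · rw [ind_of h]
      have h4 : (x b : ℝ) + 1 ≤ x (b + 1) := by
        have := h2 b hb
        have : x b + 1 ≤ x (b + 1) := by
          have := h.1
          omega
        exact_mod_cast this
      have h5 : (X : ℝ) + 1 ≤ x (b + 1) + D1 := by exact_mod_cast h.2
      have e1 : ψ (b + 1) = (X : ℝ) - x (b + 1) := min_eq_left (by linarith)
      have e2 : (X : ℝ) - x (b + 1) + 1 ≤ ψ b := le_min (by linarith) (by linarith)
      rw [e1]
      linarith
    · rw [ind_not h]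
      have : ψ (b + 1) ≤ ψ b := min_le_min_right _ (by linarith)
      linarith
  refine (sum_le_sum key).trans ?_
  rw [sum_range_sub']
  have b1 : ψ 0 ≤ D1 := min_le_right _ _
  have b2 : 0 ≤ ψ B := le_min (by have : (x B : ℝ) ≤ X := by exact_mod_cast h1 B le_rfl
                                  linarith) (Nat.cast_nonneg _)
  linarith

/-- one cap, pointwise form -/
theorem cap_le (hL : Lag P (n + 1) B D XI ξ) (hD : 1 ≤ D) {b : ℕ} (hb : b < B) {p : ℝ} (hp : 0 < p) (hp2 : p ≤ 1 / 2)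
    (T0 D1 : ℕ) :
    hc P (wd (n + 1) ξ (b + 1)) (wd (n + 1) ξ b) ≤ 2 * p * (n + 1) + P.ex (fun ω =>
      (Real.log (1 / p) + 2 * Real.log (1 + T0)) * (1 + ∑ a ∈ range n,
        (ind (XI a - ξ (b + 1) a ω < D ∧ D1 ≤ XI (a + 1) - ξ (b + 1) (a + 1) ω) +
          ind (ξ (b + 1) (a + 1) ω ≠ ξ b (a + 1) ω ∧ XI (a + 1) < ξ (b + 1) (a + 1) ω + D1))) +
      2 / (1 + T0) * ∑ a ∈ range (n + 1), ((ξ (b + 1) a ω : ℝ) - ξ b a ω)) := by
  classical
  set C0 : ℝ := Real.log (1 / p) + 2 * Real.log (1 + T0) with hC0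
  have hC : 0 ≤ C0 := by
    have h1 : 0 ≤ Real.log (1 / p) := Real.log_nonneg (by rw [le_div_iff₀ hp]; linarith)
    have h2 : 0 ≤ Real.log (1 + (T0 : ℝ)) := Real.log_nonneg (by have : (0 : ℝ) ≤ T0 := Nat.cast_nonneg _; linarith)
    rw [hC0]; linarith
  have hT : (0 : ℝ) < 1 + T0 := by positivity
  have hc1 : (0 : ℝ) ≤ 2 / (1 + T0) := by positivity
  have h := word_chain P (ξ (b + 1)) (wd (n + 1) ξ b) n
  -- the first level
  have s0 : hc P (ξ (b + 1) 0) (wd (n + 1) ξ b) ≤ 2 * p + P.ex (fun ω => C0 + 2 / (1 + T0) * ((ξ (b + 1) 0 ω : ℝ) - ξ b 0 ω)) := by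
    have h1 := step_le P (ξ (b + 1) 0) (fun ω => (true, ξ b 0 ω)) (wd (n + 1) ξ b) (by
      intro ω ω' _ _ e
      have := congrFun e 0
      simp only [wd, Fin.val_zero] at this
      show (true, ξ b 0 ω) = (true, ξ b 0 ω')
      rw [this]) hp hp2 T0 (by intro ω _ h; simp at h) (fun ω hω => hL.mono b hb 0 (by omega) ω hω)
    refine h1.trans ?_
    have := P.ex_mono (f := fun ω => ind (ξ (b + 1) 0 ω ≠ ((true, ξ b 0 ω) : Bool × ℕ).2) * (Real.log (1 / p) + 2 * Real.log (1 + T0) +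
      2 / (1 + T0) * ((ξ (b + 1) 0 ω : ℝ) - ((true, ξ b 0 ω) : Bool × ℕ).2)))
      (g := fun ω => C0 + 2 / (1 + T0) * ((ξ (b + 1) 0 ω : ℝ) - ξ b 0 ω)) (fun ω hω => by
        have h2 : (ξ b 0 ω : ℝ) ≤ ξ (b + 1) 0 ω := by exact_mod_cast hL.mono b hb 0 (by omega) ω hω
        have h3 : 0 ≤ C0 + 2 / (1 + T0) * ((ξ (b + 1) 0 ω : ℝ) - ξ b 0 ω) :=
          add_nonneg hC (mul_nonneg hc1 (by linarith))
        exact mul_le_of_le_one_left h3 (ind_le_one _))
    linarith
  -- the other levels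
  have s1 : ∀ a ∈ range n, hc P (ξ (b + 1) (a + 1)) (fun ω => (ξ (b + 1) a ω, wd (n + 1) ξ b ω)) ≤
      2 * p + P.ex (fun ω => C0 * (ind (XI a - ξ (b + 1) a ω < D ∧ D1 ≤ XI (a + 1) - ξ (b + 1) (a + 1) ω) +
          ind (ξ (b + 1) (a + 1) ω ≠ ξ b (a + 1) ω ∧ XI (a + 1) < ξ (b + 1) (a + 1) ω + D1)) +
        2 / (1 + T0) * ((ξ (b + 1) (a + 1) ω : ℝ) - ξ b (a + 1) ω)) := by
    intro a ha
    rw [mem_range] at ha
    set Z : Ω → Bool × ℕ := fun ω => if ξ (b + 1) a ω + D ≤ XI a then (false, ξ (b + 1) a ω) else (true, ξ b (a + 1) ω) with hZ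
    have h0 : ∀ ω, 0 < P.w ω → (Z ω).1 = false → ξ (b + 1) (a + 1) ω = (Z ω).2 := by
      intro ω hω hf
      by_cases h : ξ (b + 1) a ω + D ≤ XI a
      · have : Z ω = (false, ξ (b + 1) a ω) := by simp only [hZ]; rw [if_pos h]
        rw [this]
        exact hL.lag (b + 1) (by omega) a (by omega) ω hω h
      · have : Z ω = (true, ξ b (a + 1) ω) := by simp only [hZ]; rw [if_neg h]
        rw [this] at hf
        simp at hf
    have h1 : ∀ ω, 0 < P.w ω → (Z ω).2 ≤ ξ (b + 1) (a + 1) ω := by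
      intro ω hω
      by_cases h : ξ (b + 1) a ω + D ≤ XI a
      · have : Z ω = (false, ξ (b + 1) a ω) := by simp only [hZ]; rw [if_pos h]
        rw [this]
        exact (hL.lag (b + 1) (by omega) a (by omega) ω hω h).ge
      · have : Z ω = (true, ξ b (a + 1) ω) := by simp only [hZ]; rw [if_neg h]
        rw [this]
        exact hL.mono b hb (a + 1) (by omega) ω hω
    have g := step_le P (ξ (b + 1) (a + 1)) Z (fun ω => (ξ (b + 1) a ω, wd (n + 1) ξ b ω)) (by
      intro ω ω' _ _ e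
      simp only [Prod.mk.injEq] at e
      have e2 := congrFun e.2 ⟨a + 1, by omega⟩
      simp only [wd] at e2
      simp only [hZ]
      rw [e.1, e2]) hp hp2 T0 h0 h1
    refine g.trans ?_
    have := P.ex_mono (f := fun ω => ind (ξ (b + 1) (a + 1) ω ≠ (Z ω).2) * (Real.log (1 / p) + 2 * Real.log (1 + T0) +
      2 / (1 + T0) * ((ξ (b + 1) (a + 1) ω : ℝ) - (Z ω).2)))
      (g := fun ω => C0 * (ind (XI a - ξ (b + 1) a ω < D ∧ D1 ≤ XI (a + 1) - ξ (b + 1) (a + 1) ω) +
          ind (ξ (b + 1) (a + 1) ω ≠ ξ b (a + 1) ω ∧ XI (a + 1) < ξ (b + 1) (a + 1) ω + D1)) +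
        2 / (1 + T0) * ((ξ (b + 1) (a + 1) ω : ℝ) - ξ b (a + 1) ω)) (fun ω hω => by
        have h2 : (ξ b (a + 1) ω : ℝ) ≤ ξ (b + 1) (a + 1) ω := by exact_mod_cast hL.mono b hb (a + 1) (by omega) ω hω
        have h3 : 0 ≤ 2 / (1 + (T0 : ℝ)) * ((ξ (b + 1) (a + 1) ω : ℝ) - ξ b (a + 1) ω) := mul_nonneg hc1 (by linarith)
        have i1 := ind_nonneg (XI a - ξ (b + 1) a ω < D ∧ D1 ≤ XI (a + 1) - ξ (b + 1) (a + 1) ω)
        have i2 := ind_nonneg (ξ (b + 1) (a + 1) ω ≠ ξ b (a + 1) ω ∧ XI (a + 1) < ξ (b + 1) (a + 1) ω + D1)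
        by_cases hX : ξ (b + 1) (a + 1) ω = (Z ω).2
        · rw [ind_not (not_not.2 hX), zero_mul]
          have := mul_nonneg hC (add_nonneg i1 i2)
          linarith
        · rw [ind_of hX, one_mul]
          have hn : ¬ (ξ (b + 1) a ω + D ≤ XI a) := by
            intro h
            have hz : Z ω = (false, ξ (b + 1) a ω) := by simp only [hZ]; rw [if_pos h]
            exact hX (h0 ω hω (by rw [hz]))
          have hz : Z ω = (true, ξ b (a + 1) ω) := by simp only [hZ]; rw [if_neg hn]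
          rw [hz] at hX ⊢
          simp only at hX ⊢
          have i3 : 1 ≤ ind (XI a - ξ (b + 1) a ω < D ∧ D1 ≤ XI (a + 1) - ξ (b + 1) (a + 1) ω) +
              ind (ξ (b + 1) (a + 1) ω ≠ ξ b (a + 1) ω ∧ XI (a + 1) < ξ (b + 1) (a + 1) ω + D1) := by
            by_cases hl : XI (a + 1) < ξ (b + 1) (a + 1) ω + D1
            · rw [ind_of (p := ξ (b + 1) (a + 1) ω ≠ ξ b (a + 1) ω ∧ XI (a + 1) < ξ (b + 1) (a + 1) ω + D1) ⟨hX, hl⟩]
              linarith
            · rw [ind_of (p := XI a - ξ (b + 1) a ω < D ∧ D1 ≤ XI (a + 1) - ξ (b + 1) (a + 1) ω)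
                ⟨by omega, by omega⟩]
              linarith
          have := mul_le_mul_of_nonneg_left i3 hC
          rw [mul_one] at this
          linarith)
    linarith
  have s2 := sum_le_sum s1
  rw [sum_add_distrib, sum_const, card_range, nsmul_eq_mul] at s2
  refine h.trans ?_
  refine (add_le_add s0 s2).trans (le_of_eq ?_)
  have e1 : P.ex (fun ω => C0 * (1 + ∑ a ∈ range n,
        (ind (XI a - ξ (b + 1) a ω < D ∧ D1 ≤ XI (a + 1) - ξ (b + 1) (a + 1) ω) +
          ind (ξ (b + 1) (a + 1) ω ≠ ξ b (a + 1) ω ∧ XI (a + 1) < ξ (b + 1) (a + 1) ω + D1))) +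
      2 / (1 + T0) * ∑ a ∈ range (n + 1), ((ξ (b + 1) a ω : ℝ) - ξ b a ω)) =
      P.ex (fun ω => C0 + 2 / (1 + T0) * ((ξ (b + 1) 0 ω : ℝ) - ξ b 0 ω)) +
      ∑ a ∈ range n, P.ex (fun ω => C0 * (ind (XI a - ξ (b + 1) a ω < D ∧ D1 ≤ XI (a + 1) - ξ (b + 1) (a + 1) ω) +
          ind (ξ (b + 1) (a + 1) ω ≠ ξ b (a + 1) ω ∧ XI (a + 1) < ξ (b + 1) (a + 1) ω + D1)) +
        2 / (1 + T0) * ((ξ (b + 1) (a + 1) ω : ℝ) - ξ b (a + 1) ω)) := by
    rw [← ex_sum, ← P.ex_add]
    refine P.ex_congr fun ω _ => ?_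
    rw [sum_range_succ', sum_add_distrib (s := range n) (f := fun a => C0 * _), ← mul_sum, ← mul_sum]
    ring
  rw [e1]
  ring

/-- **[LAGW], explicit form** -/
theorem sum_le' (hL : Lag P (n + 1) B D XI ξ) (hD : 1 ≤ D) {p : ℝ} (hp : 0 < p) (hp2 : p ≤ 1 / 2) (T0 D1 : ℕ)
    (hD1 : D < D1) {K : ℝ} (hK : ∑ a ∈ range (n + 1), (XI a : ℝ) ≤ K * (n + 1) * B) :
    ∑ b ∈ range B, hc P (wd (n + 1) ξ (b + 1)) (wd (n + 1) ξ b) ≤ 2 * p * (n + 1) * B +
      (Real.log (1 / p) + 2 * Real.log (1 + T0)) * (2 * B + B * ((n + 1) / ((D1 : ℝ) - D)) + (n + 1) * D1) +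
      2 / (1 + T0) * (K * (n + 1) * B) := by
  classical
  set C0 : ℝ := Real.log (1 / p) + 2 * Real.log (1 + T0) with hC0
  have hC : 0 ≤ C0 := by
    have h1 : 0 ≤ Real.log (1 / p) := Real.log_nonneg (by rw [le_div_iff₀ hp]; linarith)
    have h2 : 0 ≤ Real.log (1 + (T0 : ℝ)) := Real.log_nonneg (by have : (0 : ℝ) ≤ T0 := Nat.cast_nonneg _; linarith)
    rw [hC0]; linarith
  have hT : (0 : ℝ) < 1 + T0 := by positivity
  have hc1 : (0 : ℝ) ≤ 2 / (1 + T0) := by positivity
  have hDr : (0 : ℝ) < (D1 : ℝ) - D := by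
    have : (D : ℝ) < D1 := by exact_mod_cast hD1
    linarith
  have h := sum_le_sum fun b (hb : b ∈ range B) => cap_le hL hD (mem_range.1 hb) hp hp2 T0 D1
  rw [sum_add_distrib, sum_const, card_range, nsmul_eq_mul, ← ex_sum] at h
  have h2 : P.ex (fun ω => ∑ b ∈ range B, (C0 * (1 + ∑ a ∈ range n,
        (ind (XI a - ξ (b + 1) a ω < D ∧ D1 ≤ XI (a + 1) - ξ (b + 1) (a + 1) ω) +
          ind (ξ (b + 1) (a + 1) ω ≠ ξ b (a + 1) ω ∧ XI (a + 1) < ξ (b + 1) (a + 1) ω + D1))) +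
      2 / (1 + T0) * ∑ a ∈ range (n + 1), ((ξ (b + 1) a ω : ℝ) - ξ b a ω))) ≤
      C0 * (2 * B + B * ((n + 1) / ((D1 : ℝ) - D)) + (n + 1) * D1) + 2 / (1 + T0) * (K * (n + 1) * B) := by
    rw [← P.ex_const (C0 * (2 * B + B * ((n + 1) / ((D1 : ℝ) - D)) + (n + 1) * D1) + 2 / (1 + T0) * (K * (n + 1) * B))]
    refine P.ex_mono fun ω hω => ?_
    rw [sum_add_distrib, ← mul_sum, ← mul_sum]
    refine add_le_add (mul_le_mul_of_nonneg_left ?_ hC) (mul_le_mul_of_nonneg_left ?_ hc1)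
    · rw [sum_add_distrib]
      simp only [sum_const, card_range, nsmul_eq_mul, mul_one]
      have q1 : ∀ b ∈ range B, ∑ a ∈ range n, (ind (XI a - ξ (b + 1) a ω < D ∧ D1 ≤ XI (a + 1) - ξ (b + 1) (a + 1) ω) +
          ind (ξ (b + 1) (a + 1) ω ≠ ξ b (a + 1) ω ∧ XI (a + 1) < ξ (b + 1) (a + 1) ω + D1)) ≤
          ((n + 1) / ((D1 : ℝ) - D) + 1) +
            ∑ a ∈ range n, ind (ξ (b + 1) (a + 1) ω ≠ ξ b (a + 1) ω ∧ XI (a + 1) < ξ (b + 1) (a + 1) ω + D1) := by
        intro b hb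
        rw [mem_range] at hb
        rw [sum_add_distrib]
        refine add_le_add ?_ le_rfl
        have u := up_le (fun c => XI c - ξ (b + 1) c ω) (n + 1) D D1 hD1 (by
          intro c hc hg
          have e := hL.lag (b + 1) (by omega) c hc ω hω (by
            have := hL.le (b + 1) (by omega) c (by omega) ω hω
            omega)
          have e2 := hL.desc c hc
          omega)
        rw [Nat.add_sub_cancel] at u
        rw [div_add_one hDr.ne', le_div_iff₀ hDr, mul_comm]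
        push_cast at u
        exact u
      refine (add_le_add_right (sum_le_sum q1) _).trans ?_
      rw [sum_add_distrib, sum_const, card_range, nsmul_eq_mul, sum_comm]
      have q2 : ∑ a ∈ range n, ∑ b ∈ range B,
          ind (ξ (b + 1) (a + 1) ω ≠ ξ b (a + 1) ω ∧ XI (a + 1) < ξ (b + 1) (a + 1) ω + D1) ≤ n * (D1 : ℝ) := by
        have := sum_le_sum fun a (ha : a ∈ range n) => low_le (fun b => ξ b (a + 1) ω) (XI (a + 1)) B D1
          (fun b hb => hL.le b hb (a + 1) (by have := mem_range.1 ha; omega) ω hω)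
          (fun b hb => hL.mono b hb (a + 1) (by have := mem_range.1 ha; omega) ω hω)
        rw [sum_const, card_range, nsmul_eq_mul] at this
        exact this
      have q3 : (0 : ℝ) ≤ D1 := Nat.cast_nonneg _
      linarith
    · rw [sum_comm]
      have q1 : ∀ a ∈ range (n + 1), ∑ b ∈ range B, ((ξ (b + 1) a ω : ℝ) - ξ b a ω) ≤ XI a := by
        intro a ha
        rw [sum_range_sub (fun b => (ξ b a ω : ℝ))]
        have : (ξ B a ω : ℝ) ≤ XI a := by exact_mod_cast hL.le B le_rfl a (mem_range.1 ha) ω hω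
        have : (0 : ℝ) ≤ ξ 0 a ω := Nat.cast_nonneg _
        linarith
      exact (sum_le_sum q1).trans hK
  refine h.trans ?_
  have e : (B : ℝ) * (2 * p * (n + 1)) = 2 * p * (n + 1) * B := by ring
  rw [e]
  linarith

end

/-- **[LAGW]** -/
theorem lagw {ε K : ℝ} (hε : 0 < ε) (D : ℕ) (hD : 1 ≤ D) : ∃ n0 : ℕ, ∀ n B : ℕ, n0 ≤ n → n0 ≤ B →
    ∀ {Ω : Type} [Fintype Ω] (P : Law Ω) (XI : ℕ → ℕ) (ξ : ℕ → ℕ → Ω → ℕ), Lag P n B D XI ξ →
      ∑ a ∈ range n, (XI a : ℝ) ≤ K * n * B →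
      ∑ b ∈ range B, hc P (wd n ξ (b + 1)) (wd n ξ b) ≤ ε * n * B := by
  set p : ℝ := min (1 / 2) (ε / 16) with hp
  have hp0 : 0 < p := by positivity
  have hp2 : p ≤ 1 / 2 := min_le_left _ _
  have hpε : 2 * p ≤ ε / 8 := by
    have := min_le_right (1 / 2 : ℝ) (ε / 16)
    linarith
  obtain ⟨T0, hT0⟩ := exists_nat_gt (16 * K / ε)
  have hT : (0 : ℝ) < 1 + T0 := by positivity
  have hTK : 2 / (1 + (T0 : ℝ)) * K ≤ ε / 8 := by
    rw [div_mul_eq_mul_div, div_le_iff₀ hT]
    rw [div_lt_iff₀ hε] at hT0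
    nlinarith
  set C0 : ℝ := Real.log (1 / p) + 2 * Real.log (1 + T0) with hC0
  have hC : 0 ≤ C0 := by
    have h1 : 0 ≤ Real.log (1 / p) := Real.log_nonneg (by rw [le_div_iff₀ hp0]; linarith)
    have h2 : 0 ≤ Real.log (1 + (T0 : ℝ)) := Real.log_nonneg (by have : (0 : ℝ) ≤ T0 := Nat.cast_nonneg _; linarith)
    rw [hC0]; linarith
  obtain ⟨d, hd⟩ := exists_nat_gt (8 * C0 / ε)
  have hd0 : 0 < d := by
    have : (0 : ℝ) < d := lt_of_le_of_lt (by positivity) hd
    exact_mod_cast this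
  obtain ⟨n1, hn1⟩ := exists_nat_gt (16 * C0 / ε)
  obtain ⟨n2, hn2⟩ := exists_nat_gt (8 * (C0 * ((D + d : ℕ) : ℝ)) / ε)
  refine ⟨max (max n1 n2) 1, ?_⟩
  intro n B hn hB Ω _ P XI ξ hL hs
  obtain ⟨n', rfl⟩ : ∃ n', n = n' + 1 := ⟨n - 1, by omega⟩
  push_cast at hs ⊢
  have h := sum_le' hL hD hp0 hp2 T0 (D + d) (by omega) hs
  refine h.trans ?_
  have hn1' : (n1 : ℝ) ≤ (n' : ℝ) + 1 := by exact_mod_cast (show n1 ≤ n' + 1 by omega)
  have hn2' : (n2 : ℝ) ≤ B := by exact_mod_cast (show n2 ≤ B by omega)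
  have hB0 : (0 : ℝ) ≤ B := Nat.cast_nonneg _
  have hn0 : (0 : ℝ) < (n' : ℝ) + 1 := by positivity
  have e1 : (((D + d : ℕ) : ℝ) - D) = d := by push_cast; ring
  rw [e1]
  have a1 : 2 * p * (n' + 1) * B ≤ ε / 8 * ((n' + 1) * B) := by
    rw [mul_assoc]
    exact mul_le_mul_of_nonneg_right hpε (by positivity)
  have a2 : C0 * (2 * B) ≤ ε / 8 * ((n' + 1) * B) := by
    have : 16 * C0 ≤ ε * (n' + 1) := by
      have := (div_lt_iff₀ hε).1 (hn1.trans_le hn1')
      linarith
    nlinarith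
  have a3 : C0 * (B * ((n' + 1) / (d : ℝ))) ≤ ε / 8 * ((n' + 1) * B) := by
    have hd1 : (0 : ℝ) < d := by exact_mod_cast hd0
    have : C0 / d ≤ ε / 8 := by
      rw [div_le_iff₀ hd1]
      have := (div_lt_iff₀ hε).1 hd
      linarith
    have e : C0 * (B * ((n' + 1) / (d : ℝ))) = C0 / d * ((n' + 1) * B) := by
      field_simp
    rw [e]
    exact mul_le_mul_of_nonneg_right this (by positivity)
  have a4 : C0 * ((n' + 1) * ((D + d : ℕ) : ℝ)) ≤ ε / 8 * ((n' + 1) * B) := by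
    have : 8 * (C0 * ((D + d : ℕ) : ℝ)) ≤ ε * B := by
      have := (div_lt_iff₀ hε).1 (hn2.trans_le hn2')
      linarith
    nlinarith
  have a5 : 2 / (1 + (T0 : ℝ)) * (K * (n' + 1) * B) ≤ ε / 8 * ((n' + 1) * B) := by
    have e : 2 / (1 + (T0 : ℝ)) * (K * (n' + 1) * B) = 2 / (1 + (T0 : ℝ)) * K * ((n' + 1) * B) := by ring
    rw [e]
    exact mul_le_mul_of_nonneg_right hTK (by positivity)
  have a6 : 0 ≤ ε * ((n' + 1) * B) := by positivity
  have e2 : C0 * (2 * B + B * ((n' + 1) / (d : ℝ)) + (n' + 1) * ((D + d : ℕ) : ℝ)) =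
      C0 * (2 * B) + C0 * (B * ((n' + 1) / (d : ℝ))) + C0 * ((n' + 1) * ((D + d : ℕ) : ℝ)) := by ring
  rw [e2]
  have e3 : ε * (n' + 1) * B = ε * ((n' + 1) * B) := by ring
  rw [e3]
  linarith

/-! ### windows, and the entropy of one word -/

section

variable {Ω : Type} [Fintype Ω] {P : Law Ω} {n B D : ℕ} {XI : ℕ → ℕ} {ξ : ℕ → ℕ → Ω → ℕ}

/-- the joint word of the caps `b + 1, …, b + T` given the word of the cap `b` -/
theorem joint_le (ξ : ℕ → ℕ → Ω → ℕ) (n b T : ℕ) :
    hc P (fun ω (j : Fin T) => wd n ξ (b + (j + 1)) ω) (wd n ξ b) ≤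
      ∑ j ∈ range T, hc P (wd n ξ (b + j + 1)) (wd n ξ (b + j)) := by
  induction T with
  | zero =>
    simp only [range_zero, sum_empty]
    exact (hc_zero P fun ω ω' _ _ _ => funext fun j => j.elim0).le
  | succ T ih =>
    rw [sum_range_succ]
    have h1 : hc P (fun ω (j : Fin (T + 1)) => wd n ξ (b + (j + 1)) ω) (wd n ξ b) ≤
        hc P (fun ω => ((fun j : Fin T => wd n ξ (b + (j + 1)) ω), wd n ξ (b + (T + 1)) ω)) (wd n ξ b) := by
      refine hc_mono_left P fun ω ω' _ _ e => ?_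
      simp only [Prod.mk.injEq] at e
      funext j
      rcases Nat.lt_succ_iff_lt_or_eq.1 j.2 with h | h
      · exact congrFun e.1.1 ⟨j, h⟩
      · rw [h]; exact e.1.2
    rw [hc_pair] at h1
    have h2 : hc P (wd n ξ (b + (T + 1))) (fun ω => ((fun j : Fin T => wd n ξ (b + (j + 1)) ω), wd n ξ b ω)) ≤
        hc P (wd n ξ (b + T + 1)) (wd n ξ (b + T)) := by
      refine hc_mono_right P _ fun ω ω' _ _ e => ?_
      simp only [Prod.mk.injEq] at e
      rcases Nat.eq_zero_or_pos T with hT | hT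
      · subst hT
        exact e.2
      · have := congrFun e.1 ⟨T - 1, by omega⟩
        simp only at this
        rw [Nat.sub_add_cancel hT] at this
        exact this
    linarith

/-- **windows**: on average over the places `b < B - T` the joint word of the next `T` caps costs at most `T` times the
average cost of one cap -/
theorem window_sum (ξ : ℕ → ℕ → Ω → ℕ) (n B T : ℕ) {X : ℝ}
    (h : ∑ b ∈ range B, hc P (wd n ξ (b + 1)) (wd n ξ b) ≤ X) :
    ∑ b ∈ range (B - T), hc P (fun ω (j : Fin T) => wd n ξ (b + (j + 1)) ω) (wd n ξ b) ≤ T * X := by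
  refine (sum_le_sum fun b _ => joint_le (P := P) ξ n b T).trans ?_
  rw [sum_comm]
  have h1 : ∀ j ∈ range T, ∑ b ∈ range (B - T), hc P (wd n ξ (b + j + 1)) (wd n ξ (b + j)) ≤ X := by
    intro j hj
    rw [mem_range] at hj
    refine le_trans ?_ h
    have e : ∑ b ∈ range (B - T), hc P (wd n ξ (b + j + 1)) (wd n ξ (b + j)) =
        ∑ b ∈ (range (B - T)).image (fun b => b + j), hc P (wd n ξ (b + 1)) (wd n ξ b) := by
      rw [sum_image]
      intro x _ y _ hxy
      exact Nat.add_right_cancel hxy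
    rw [e]
    refine sum_le_sum_of_subset_of_nonneg ?_ fun b _ _ => hc_nonneg P _ _
    intro b hb
    rw [mem_image] at hb
    obtain ⟨c, hc, rfl⟩ := hb
    rw [mem_range] at hc ⊢
    omega
  refine (sum_le_sum h1).trans ?_
  rw [sum_const, card_range, nsmul_eq_mul]

/-- entropy of a path: `R (a) = s a + ξ a` nondecreasing and at most `M` -/
theorem path_H (X : ℕ → Ω → ℕ) (n s M : ℕ) (h1 : ∀ a, a < n → ∀ ω, 0 < P.w ω → X a ω ≤ X (a + 1) ω + s)
    (h2 : ∀ ω, 0 < P.w ω → X n ω ≤ M) :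
    P.H (fun ω (i : Fin (n + 1)) => X i ω) ≤ ((n + 1) * (s + 1) + M) * Real.log 2 := by
  classical
  have hlog : 0 ≤ Real.log 2 := Real.log_nonneg one_le_two
  -- the kernel
  set q : ℕ → ℕ → ℝ := fun x y => if y ≤ x then (1 / 2 : ℝ) ^ (x - y + 1) else 0 with hq
  have q0 : ∀ x y, 0 ≤ q x y := fun x y => by
    simp only [hq]
    split_ifs <;> positivity
  have q1r : ∀ y M, ∑ x ∈ range M, q x y ≤ if y < M then 1 - (1 / 2 : ℝ) ^ (M - y) else 0 := by
    intro y M
    induction M with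
    | zero => simp
    | succ M ih =>
      rw [sum_range_succ]
      simp only [hq] at ih ⊢
      rcases lt_trichotomy y M with h | h | h
      · rw [if_pos h] at ih
        rw [if_pos h.le, if_pos (by omega), show M + 1 - y = M - y + 1 by omega]
        have : (1 / 2 : ℝ) ^ (M - y + 1) = (1 / 2 : ℝ) ^ (M - y) / 2 := by rw [pow_succ]; ring
        rw [this] at *
        linarith
      · subst h
        rw [if_neg (lt_irrefl _)] at ih
        rw [if_pos le_rfl, if_pos (by omega), show y + 1 - y = 1 by omega, show y - y + 1 = 1 by omega]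
        norm_num at ih ⊢
        linarith
      · rw [if_neg (by omega)] at ih
        rw [if_neg (by omega), if_neg (by omega)]
        linarith
  have q1 : ∀ y, ∀ F : Finset ℕ, ∑ x ∈ F, q x y ≤ 1 := by
    intro y F
    have h1 : F ⊆ range (F.sup id + 1) := by
      intro x hx
      rw [mem_range]
      have : x ≤ F.sup id := Finset.le_sup (f := id) hx
      omega
    refine (sum_le_sum_of_subset_of_nonneg h1 fun x _ _ => q0 x y).trans ((q1r y _).trans ?_)
    split_ifs with h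
    · have : (0 : ℝ) < (1 / 2 : ℝ) ^ (F.sup id + 1 - y) := by positivity
      linarith
    · exact zero_le_one
  have lg : ∀ x y, y ≤ x → -Real.log (q x y) = ((x : ℝ) - y + 1) * Real.log 2 := by
    intro x y h
    simp only [hq]
    rw [if_pos h, Real.log_pow, one_div, Real.log_inv]
    push_cast [Nat.cast_sub h]
    ring
  have hw := word_chain P X (fun _ : Ω => ()) n
  have hH : P.H (fun ω (i : Fin (n + 1)) => X i ω) = hc P (fun ω (i : Fin (n + 1)) => X i ω) (fun _ : Ω => ()) := by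
    unfold hc
    have h1 : P.H (fun _ : Ω => ()) = 0 := by
      have h2 : P.H (fun _ : Ω => ()) ≤ Real.log (Fintype.card Unit) := P.H_le_log_card _
      simp only [Fintype.card_unit, Nat.cast_one, Real.log_one] at h2
      exact le_antisymm h2 (P.H_nonneg _)
    rw [h1, sub_zero]
    exact P.H_congr fun ω ω' => by simp
  rw [hH]
  refine hw.trans ?_
  have s0 : hc P (X 0) (fun _ : Ω => ()) ≤ P.ex (fun ω => ((X 0 ω : ℝ) + 1) * Real.log 2) := by
    have g : hc P (X 0) (fun _ : Ω => ()) ≤ P.ex (fun ω => -Real.log (q (X 0 ω) 0)) :=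
      P.gibbs_cond (X 0) (fun _ : Ω => ()) (fun x _ => q x 0) (fun x _ => q0 x 0) (fun _ F => q1 0 F) (by
        intro ω _
        simp only [hq]
        rw [if_pos (Nat.zero_le _)]
        positivity)
    refine g.trans (P.ex_mono fun ω _ => ?_)
    rw [lg _ _ (Nat.zero_le _)]
    simp
  have s1 : ∀ a ∈ range n, hc P (X (a + 1)) (fun ω => (X a ω, ())) ≤
      P.ex (fun ω => ((X (a + 1) ω : ℝ) - X a ω + s + 1) * Real.log 2) := by
    intro a ha
    rw [mem_range] at ha
    -- code of `X (a+1) + s` from `X a`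
    have g : hc P (X (a + 1)) (fun ω => (X a ω, ())) ≤ P.ex (fun ω => -Real.log (q (X (a + 1) ω + s) (X a ω))) :=
      P.gibbs_cond (X (a + 1)) (fun ω => (X a ω, ())) (fun x z => q (x + s) z.1) (fun x z => q0 _ _) (by
        intro z F
        have e : ∑ x ∈ F, q (x + s) z.1 = ∑ x ∈ F.image (fun x => x + s), q x z.1 := by
          rw [sum_image]
          intro x _ y _ hxy
          exact Nat.add_right_cancel hxy
        rw [e]
        exact q1 _ _) (by
        intro ω hω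
        simp only [hq]
        rw [if_pos (h1 a ha ω hω)]
        positivity)
    refine g.trans (P.ex_mono fun ω hω => ?_)
    rw [lg _ _ (h1 a ha ω hω)]
    push_cast
    refine le_of_eq ?_
    ring
  refine (add_le_add s0 (sum_le_sum s1)).trans ?_
  rw [← ex_sum, ← P.ex_add, ← P.ex_const (((n + 1) * (s + 1) + M) * Real.log 2)]
  refine P.ex_mono fun ω hω => ?_
  rw [← sum_mul, ← add_mul]
  refine mul_le_mul_of_nonneg_right ?_ hlog
  have e : ∑ a ∈ range n, ((X (a + 1) ω : ℝ) - X a ω + s + 1) = ((X n ω : ℝ) - X 0 ω) + n * (s + 1) := by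
    have : ∀ a ∈ range n, ((X (a + 1) ω : ℝ) - X a ω + s + 1) = ((X (a + 1) ω : ℝ) - X a ω) + (s + 1) := fun a _ => by ring
    rw [sum_congr rfl this, sum_add_distrib, sum_range_sub (fun a => (X a ω : ℝ)), sum_const, card_range, nsmul_eq_mul]
  rw [e]
  have h3 : (X n ω : ℝ) ≤ M := by exact_mod_cast h2 ω hω
  have h4 : (0 : ℝ) ≤ s := Nat.cast_nonneg _
  nlinarith

end

end Vale.Agent.P106.U.H864
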