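import Vale.Agent.P106.U.H459.End7Defs
import Vale.Agent.P127.U.ApxS

/-!
# P106 / U / H864 : the box of the state `Zh h` (helper864)

`exists_w` : for an environment with `Supp` there is a box `w ζ`, a function of the value `ζ` of `E.Zh E.h`, which is a label of
level `h`, shape `(0, q)` and class `100` of every ray and time with this value.
-/

set_option autoImplicit false

namespace Vale.Agent.P106.U.H864

open Finset Vale.Agent.P127 Vale.Agent.P127.Stk Vale.Agent.P127.U Vale.Agent.P127.U.CellD Vale.Agent.P106.W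
open Vale.Agent.P106.K (Ry RyOk bl Bin)
open Vale.Agent.P122.C2 (fw fn)
open Vale.Agent.P106.U.End7

/-- decomposition of a vector of the plane -/
theorem vec_dec (θ : ℝ) (D : Fin 2 → ℝ) : D 0 = Real.cos θ * fw θ D - Real.sin θ * fn θ D ∧
    D 1 = Real.sin θ * fw θ D + Real.cos θ * fn θ D := by
  have h := Real.sin_sq_add_cos_sq θ
  unfold fw fn
  constructor
  · linear_combination (-D 0) * h
  · linear_combination (-D 1) * h

/-- value of `G` at the time `τ` in terms of position and height -/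
theorem gval (B : Cbx) (l : Ry) (τ : ℝ) : B.g0 l.y l.s l.z + τ * B.g1 l.y l.s l.z =
    fn B.θ (fun k => l.pos τ k - B.p k - τ * B.v k) +
      B.κ * (l.hgt τ - ∑ k, l.pos τ k * B.v k + τ * (∑ k, B.v k ^ 2) / 2 - B.ω) +
      B.α * (2 * τ * l.hgt τ - ∑ k, (l.pos τ k - B.p k) ^ 2 - 2 * τ * (∑ k, B.p k * B.v k + B.ω)) := by
  simp only [Cbx.g0, Cbx.g1, Ry.pos, Ry.hgt, fn, Pi.sub_apply, Fin.sum_univ_two]
  ring

/-- difference of the values of `G` at the time `τ` -/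
theorem gdiff (B : Cbx) (l m : Ry) (τ : ℝ) :
    (B.g0 l.y l.s l.z + τ * B.g1 l.y l.s l.z) - (B.g0 m.y m.s m.z + τ * B.g1 m.y m.s m.z) =
      fn B.θ (fun k => l.pos τ k - m.pos τ k) -
        ∑ k, (B.κ * B.v k + 2 * B.α * ((l.pos τ k + m.pos τ k) / 2 - B.p k)) * (l.pos τ k - m.pos τ k) +
        (B.κ + 2 * B.α * τ) * (l.hgt τ - m.hgt τ) := by
  rw [gval, gval]
  simp only [fn, Fin.sum_univ_two]
  ring

theorem abs_add3 (a b c : ℝ) : |a + b + c| ≤ |a| + |b| + |c| :=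
  (abs_add_le _ _).trans (add_le_add (abs_add_le _ _) le_rfl)

/-- the state determines the position up to a constant -/
theorem pos_near (B : Cbx) (l m : Ry) (τ ρ : ℝ) (hτ0 : 0 ≤ τ) (hτ1 : τ ≤ 1) (hρ : 0 ≤ ρ)
    (hα : |B.α| ≤ 1 / 8) (hκ : |B.κ| ≤ 1 / 8) (hv : ∀ k, |B.v k| ≤ 1)
    (hl : ∀ k, |l.y k - B.p k| ≤ 1) (hm : ∀ k, |m.y k - B.p k| ≤ 1) (hls : ∀ k, |l.s k| ≤ 1)
    (hms : ∀ k, |m.s k| ≤ 1)
    (h1 : |fw B.θ (fun k => l.pos τ k - m.pos τ k)| ≤ 2 * ρ) (h2 : |l.hgt τ - m.hgt τ| ≤ ρ)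
    (h3 : |(B.g0 l.y l.s l.z + τ * B.g1 l.y l.s l.z) - (B.g0 m.y m.s m.z + τ * B.g1 m.y m.s m.z)| ≤ ρ) :
    ∀ k, |l.pos τ k - m.pos τ k| ≤ 30 * ρ := by
  set D : Fin 2 → ℝ := fun k => l.pos τ k - m.pos τ k with hD
  set dl : ℝ := l.hgt τ - m.hgt τ with hdl
  set c : Fin 2 → ℝ := fun k => B.κ * B.v k + 2 * B.α * ((l.pos τ k + m.pos τ k) / 2 - B.p k) with hc
  rw [gdiff] at h3
  have hcb : ∀ k, |c k| ≤ 5 / 8 := by
    intro k
    have e : c k = B.κ * B.v k + B.α * (l.y k - B.p k) + B.α * (m.y k - B.p k) +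
        (B.α * τ * l.s k + B.α * τ * m.s k) := by
      simp only [hc, Ry.pos]
      ring
    have a1 : |B.κ * B.v k| ≤ 1 / 8 := by
      rw [abs_mul]
      exact (mul_le_mul hκ (hv k) (abs_nonneg _) (by norm_num)).trans (by norm_num)
    have a2 : |B.α * (l.y k - B.p k)| ≤ 1 / 8 := by
      rw [abs_mul]
      exact (mul_le_mul hα (hl k) (abs_nonneg _) (by norm_num)).trans (by norm_num)
    have a3 : |B.α * (m.y k - B.p k)| ≤ 1 / 8 := by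
      rw [abs_mul]
      exact (mul_le_mul hα (hm k) (abs_nonneg _) (by norm_num)).trans (by norm_num)
    have aτ : |B.α * τ| ≤ 1 / 8 := by
      rw [abs_mul, abs_of_nonneg hτ0]
      exact (mul_le_mul hα hτ1 hτ0 (by norm_num)).trans (by norm_num)
    have a4 : |B.α * τ * l.s k| ≤ 1 / 8 := by
      rw [abs_mul]
      exact (mul_le_mul aτ (hls k) (abs_nonneg _) (by norm_num)).trans (by norm_num)
    have a5 : |B.α * τ * m.s k| ≤ 1 / 8 := by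
      rw [abs_mul]
      exact (mul_le_mul aτ (hms k) (abs_nonneg _) (by norm_num)).trans (by norm_num)
    rw [e]
    have b1 := abs_add3 (B.κ * B.v k) (B.α * (l.y k - B.p k)) (B.α * (m.y k - B.p k))
    have b2 := abs_add_le (B.α * τ * l.s k) (B.α * τ * m.s k)
    have b3 := abs_add_le (B.κ * B.v k + B.α * (l.y k - B.p k) + B.α * (m.y k - B.p k))
      (B.α * τ * l.s k + B.α * τ * m.s k)
    linarith
  set a := fw B.θ D with ha
  set b := fn B.θ D with hb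
  obtain ⟨d0, d1⟩ := vec_dec B.θ D
  rw [← ha, ← hb] at d0 d1
  set cw := fw B.θ c with hcw
  set cn := fn B.θ c with hcn
  have hsum : ∑ k, c k * D k = cw * a + cn * b := by
    rw [Fin.sum_univ_two, d0, d1, hcw, hcn]
    unfold fw fn
    ring
  have hsq : cw ^ 2 + cn ^ 2 ≤ 50 / 64 := by
    have e : cw ^ 2 + cn ^ 2 = c 0 ^ 2 + c 1 ^ 2 := by
      rw [hcw, hcn]
      unfold fw fn
      linear_combination (c 0 ^ 2 + c 1 ^ 2) * Real.sin_sq_add_cos_sq B.θ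
    have q0 : c 0 ^ 2 ≤ (5 / 8) ^ 2 := sq_le_sq' (abs_le.1 (hcb 0)).1 (abs_le.1 (hcb 0)).2
    have q1 : c 1 ^ 2 ≤ (5 / 8) ^ 2 := sq_le_sq' (abs_le.1 (hcb 1)).1 (abs_le.1 (hcb 1)).2
    rw [e]
    linarith
  have hw : |cw| ≤ 177 / 200 := abs_le_of_sq_le_sq (by nlinarith [sq_nonneg cn]) (by norm_num)
  have hn : |cn| ≤ 177 / 200 := abs_le_of_sq_le_sq (by nlinarith [sq_nonneg cw]) (by norm_num)
  have hk' : |B.κ + 2 * B.α * τ| ≤ 3 / 8 := by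
    have aτ : |2 * B.α * τ| ≤ 1 / 4 := by
      rw [abs_mul, abs_mul, abs_of_nonneg hτ0, abs_of_pos (by norm_num : (0 : ℝ) < 2)]
      nlinarith [abs_nonneg B.α]
    have := abs_add_le B.κ (2 * B.α * τ)
    linarith
  have hb1 : |b| ≤ 28 * ρ := by
    change |b - ∑ k, c k * D k + (B.κ + 2 * B.α * τ) * dl| ≤ ρ at h3
    rw [hsum] at h3
    have e1 : |cw * a| ≤ 177 / 200 * (2 * ρ) := by
      rw [abs_mul]
      exact mul_le_mul hw h1 (abs_nonneg _) (by norm_num)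
    have e2 : |(B.κ + 2 * B.α * τ) * dl| ≤ 3 / 8 * ρ := by
      rw [abs_mul]
      exact mul_le_mul hk' h2 (abs_nonneg _) (by norm_num)
    have e3 : |cn * b| ≤ 177 / 200 * |b| := by
      rw [abs_mul]
      exact mul_le_mul_of_nonneg_right hn (abs_nonneg _)
    have e4 : b = (b - (cw * a + cn * b) + (B.κ + 2 * B.α * τ) * dl) + (cw * a + cn * b) -
        (B.κ + 2 * B.α * τ) * dl := by ring
    have e5 : |b| ≤ |b - (cw * a + cn * b) + (B.κ + 2 * B.α * τ) * dl| + (|cw * a| + |cn * b|) +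
        |(B.κ + 2 * B.α * τ) * dl| := by
      calc |b| = |(b - (cw * a + cn * b) + (B.κ + 2 * B.α * τ) * dl) + (cw * a + cn * b) -
            (B.κ + 2 * B.α * τ) * dl| := by rw [← e4]
        _ ≤ |(b - (cw * a + cn * b) + (B.κ + 2 * B.α * τ) * dl) + (cw * a + cn * b)| +
            |(B.κ + 2 * B.α * τ) * dl| := abs_sub _ _
        _ ≤ _ := add_le_add ((abs_add_le _ _).trans (add_le_add le_rfl (abs_add_le _ _))) le_rfl
    linarith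
  have hs1 : |Real.sin B.θ| ≤ 1 := Real.abs_sin_le_one _
  have hc1 : |Real.cos B.θ| ≤ 1 := Real.abs_cos_le_one _
  have m1 : ∀ x : ℝ, |x| ≤ 1 → ∀ y z : ℝ, |y| ≤ z → |x * y| ≤ z := by
    intro x hx y z hy
    rw [abs_mul]
    nlinarith [abs_nonneg x, abs_nonneg y]
  intro k
  show |D k| ≤ 30 * ρ
  fin_cases k
  · show |D 0| ≤ 30 * ρ
    rw [d0]
    have := abs_sub (Real.cos B.θ * a) (Real.sin B.θ * b)
    have g1 := m1 _ hc1 a _ h1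
    have g2 := m1 _ hs1 b _ hb1
    linarith
  · show |D 1| ≤ 30 * ρ
    rw [d1]
    have := abs_add_le (Real.sin B.θ * a) (Real.cos B.θ * b)
    have g1 := m1 _ hs1 a _ h1
    have g2 := m1 _ hc1 b _ hb1
    linarith

/-- the ray in the block which starts at the time `τ` -/
noncomputable def blk (x τ : ℝ) (l : Ry) : Ry :=
  ⟨fun k => x * l.pos τ k, l.s, x * (l.z - τ * (∑ k, l.s k ^ 2) / 2)⟩

/-- the box of the block centred at the ray `m` -/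
noncomputable def wb (B : Cbx) (q : ℕ) (x τ len θ' : ℝ) (m : Ry) : Cbx where
  θ := θ'
  u1 := (1 / 2 : ℝ) ^ q
  u2 := 1
  κ := (B.κ + 2 * B.α * τ) / len
  α := B.α / (x * len)
  p := (blk x τ m).y
  v := m.s
  ω := (blk x τ m).z

theorem hz_eq (B : Cbx) (q : ℕ) (x τ len θ' : ℝ) (m l : Ry) :
    (blk x τ l).z + ∑ k, (blk x τ l).y k * ((blk x τ l).s k - (wb B q x τ len θ' m).v k) - (wb B q x τ len θ' m).ω =
      x * ((l.hgt τ - m.hgt τ) - ∑ k, (l.pos τ k - m.pos τ k) * m.s k) := by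
  simp only [blk, wb, Ry.pos, Ry.hgt, Fin.sum_univ_two]
  ring

theorem g0_eq (B : Cbx) (q : ℕ) {x τ len θ' : ℝ} (m l : Ry) (hx : x ≠ 0) (hlen : len ≠ 0)
    (n0 : B.nn m.y m.s 0 = -(len * Real.sin θ')) (n1 : B.nn m.y m.s 1 = len * Real.cos θ') :
    fn (wb B q x τ len θ' m).θ ((blk x τ l).y - (wb B q x τ len θ' m).p) + (wb B q x τ len θ' m).κ *
        ((blk x τ l).z + ∑ k, (blk x τ l).y k * ((blk x τ l).s k - (wb B q x τ len θ' m).v k) -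
          (wb B q x τ len θ' m).ω) -
        (wb B q x τ len θ' m).α * ∑ k, ((blk x τ l).y k - (wb B q x τ len θ' m).p k) ^ 2 =
      x * ((B.g0 l.y l.s l.z + τ * B.g1 l.y l.s l.z) - (B.g0 m.y m.s m.z + τ * B.g1 m.y m.s m.z)) / len := by
  rw [hz_eq, gdiff, eq_div_iff hlen]
  simp only [wb, blk, fn, Fin.sum_univ_two, Pi.sub_apply]
  have e1 : (B.κ + 2 * B.α * τ) / len * (x * (l.hgt τ - m.hgt τ - ((l.pos τ 0 - m.pos τ 0) * m.s 0 +
      (l.pos τ 1 - m.pos τ 1) * m.s 1))) * len = (B.κ + 2 * B.α * τ) * (x * (l.hgt τ - m.hgt τ -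
      ((l.pos τ 0 - m.pos τ 0) * m.s 0 + (l.pos τ 1 - m.pos τ 1) * m.s 1))) := by
    field_simp
  have e2 : B.α / (x * len) * ((x * l.pos τ 0 - x * m.pos τ 0) ^ 2 + (x * l.pos τ 1 - x * m.pos τ 1) ^ 2) * len =
      x * B.α * ((l.pos τ 0 - m.pos τ 0) ^ 2 + (l.pos τ 1 - m.pos τ 1) ^ 2) := by
    field_simp
  have n0' : len * Real.sin θ' = -(B.nn m.y m.s 0) := by rw [n0]; ring
  have n1' : len * Real.cos θ' = B.nn m.y m.s 1 := n1.symm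
  rw [sub_mul, add_mul, e1, e2]
  have e3 : (-Real.sin θ' * (x * l.pos τ 0 - x * m.pos τ 0) + Real.cos θ' * (x * l.pos τ 1 - x * m.pos τ 1)) * len =
      x * (B.nn m.y m.s 0 * (l.pos τ 0 - m.pos τ 0) + B.nn m.y m.s 1 * (l.pos τ 1 - m.pos τ 1)) := by
    linear_combination (-(x * (l.pos τ 0 - m.pos τ 0))) * n0' + (x * (l.pos τ 1 - m.pos τ 1)) * n1'
  rw [e3]
  simp only [Cbx.nn, Ry.pos, Matrix.cons_val_zero, Matrix.cons_val_one]
  ring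

theorem g1_eq (B : Cbx) (q : ℕ) {x τ len θ' : ℝ} (m l : Ry) (hx : x ≠ 0) (hlen : len ≠ 0)
    (n0 : B.nn m.y m.s 0 = -(len * Real.sin θ')) (n1 : B.nn m.y m.s 1 = len * Real.cos θ') :
    fn (wb B q x τ len θ' m).θ ((blk x τ l).s - (wb B q x τ len θ' m).v) + (wb B q x τ len θ' m).κ *
        (∑ k, ((blk x τ l).s k - (wb B q x τ len θ' m).v k) ^ 2) / 2 +
        2 * (wb B q x τ len θ' m).α * ((blk x τ l).z + ∑ k, (wb B q x τ len θ' m).p k * ((blk x τ l).s k -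
          (wb B q x τ len θ' m).v k) - (wb B q x τ len θ' m).ω) =
      (B.g1 l.y l.s l.z - B.g1 m.y m.s m.z) / len := by
  rw [eq_div_iff hlen, B.g1_rec m.y m.s l.y l.s m.z l.z]
  simp only [wb, blk, fn, Fin.sum_univ_two, Pi.sub_apply]
  have n0' : len * Real.sin θ' = -(B.nn m.y m.s 0) := by rw [n0]; ring
  have n1' : len * Real.cos θ' = B.nn m.y m.s 1 := n1.symm
  rw [add_mul, add_mul]
  have e3 : (-Real.sin θ' * (l.s 0 - m.s 0) + Real.cos θ' * (l.s 1 - m.s 1)) * len =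
      B.nn m.y m.s 0 * (l.s 0 - m.s 0) + B.nn m.y m.s 1 * (l.s 1 - m.s 1) := by
    linear_combination (-((l.s 0 - m.s 0))) * n0' + ((l.s 1 - m.s 1)) * n1'
  have e1 : (B.κ + 2 * B.α * τ) / len * ((l.s 0 - m.s 0) ^ 2 + (l.s 1 - m.s 1) ^ 2) / 2 * len =
      (B.κ + 2 * B.α * τ) * ((l.s 0 - m.s 0) ^ 2 + (l.s 1 - m.s 1) ^ 2) / 2 := by
    field_simp
  have e2 : 2 * (B.α / (x * len)) * (x * (l.z - τ * (l.s 0 ^ 2 + l.s 1 ^ 2) / 2) +
      (x * m.pos τ 0 * (l.s 0 - m.s 0) + x * m.pos τ 1 * (l.s 1 - m.s 1)) -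
      x * (m.z - τ * (m.s 0 ^ 2 + m.s 1 ^ 2) / 2)) * len =
      2 * B.α * ((l.z - τ * (l.s 0 ^ 2 + l.s 1 ^ 2) / 2) +
      (m.pos τ 0 * (l.s 0 - m.s 0) + m.pos τ 1 * (l.s 1 - m.s 1)) -
      (m.z - τ * (m.s 0 ^ 2 + m.s 1 ^ 2) / 2)) := by
    field_simp
  rw [e3, e1, e2]
  simp only [Ry.pos]
  ring

/-- the length of the normal at a ray of the box -/
theorem len_bd {B : Cbx} {m : Ry} (h0 : |B.g0 m.y m.s m.z| ≤ 1) (h1 : |B.g1 m.y m.s m.z| ≤ 1)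
    (hα : |B.α| ≤ 1 / 8) (hκ : |B.κ| ≤ 1 / 8) :
    ∃ len θ' : ℝ, 1 / 2 ≤ len ∧ B.nn m.y m.s 0 = -(len * Real.sin θ') ∧ B.nn m.y m.s 1 = len * Real.cos θ' := by
  have hX := B.nn_sq m.y m.s m.z
  set X := B.nn m.y m.s 0 ^ 2 + B.nn m.y m.s 1 ^ 2 with hXd
  have e1 : |2 * B.κ * B.g1 m.y m.s m.z| ≤ 1 / 4 := by
    rw [abs_mul, abs_mul, abs_of_pos (by norm_num : (0 : ℝ) < 2)]
    nlinarith [abs_nonneg B.κ, abs_nonneg (B.g1 m.y m.s m.z)]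
  have e2 : |4 * B.α * B.g0 m.y m.s m.z| ≤ 1 / 2 := by
    rw [abs_mul, abs_mul, abs_of_pos (by norm_num : (0 : ℝ) < 4)]
    nlinarith [abs_nonneg B.α, abs_nonneg (B.g0 m.y m.s m.z)]
  have hlow : (1 / 2 : ℝ) ^ 2 ≤ X := by
    rw [hX]
    have := (abs_le.1 e1).1
    have := (abs_le.1 e2).2
    linarith
  have hX0 : 0 < X := lt_of_lt_of_le (by norm_num) hlow
  have hL0 : 0 < Real.sqrt X := Real.sqrt_pos.2 hX0
  have hLs : Real.sqrt X ^ 2 = X := Real.sq_sqrt hX0.le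
  obtain ⟨θ', hc', hs'⟩ := exists_angle (x := B.nn m.y m.s 1 / Real.sqrt X) (y := -(B.nn m.y m.s 0) / Real.sqrt X) (by
    rw [div_pow, div_pow, hLs, ← add_div, div_eq_one_iff_eq hX0.ne', hXd]; ring)
  refine ⟨Real.sqrt X, θ', Real.le_sqrt_of_sq_le hlow, ?_, ?_⟩
  · rw [hs']; field_simp
  · rw [hc']; field_simp

/-- the box centred at the ray `m` contains the rays with nearly the same state -/
theorem wb_bin {B : Cbx} {q : ℕ} {m l : Ry} {x τ ρ u len θ' : ℝ} (hx0 : 0 < x) (hxρ : x * ρ = 1) (hlen : 1 / 2 ≤ len)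
    (hu : u = (1 / 2 : ℝ) ^ q) (rs : ∀ k, |m.s k| ≤ 1) (rs' : ∀ k, |l.s k| ≤ 1)
    (i5 : |B.g1 m.y m.s m.z| ≤ u) (j5 : |B.g1 l.y l.s l.z| ≤ u)
    (f2 : |l.hgt τ - m.hgt τ| ≤ ρ)
    (f3 : |(B.g0 l.y l.s l.z + τ * B.g1 l.y l.s l.z) - (B.g0 m.y m.s m.z + τ * B.g1 m.y m.s m.z)| ≤ u * ρ)
    (hpos : ∀ k, |l.pos τ k - m.pos τ k| ≤ 30 * ρ)
    (n0 : B.nn m.y m.s 0 = -(len * Real.sin θ')) (n1 : B.nn m.y m.s 1 = len * Real.cos θ') :
    Bin 100 (wb B q x τ len θ' m) 0 (blk x τ l) := by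
  have hlen0 : 0 < len := by linarith
  have hu0 : 0 < u := by rw [hu]; positivity
  have hD : ∀ k, |x * (l.pos τ k - m.pos τ k)| ≤ 30 := by
    intro k
    rw [abs_mul, abs_of_pos hx0]
    have := mul_le_mul_of_nonneg_left (hpos k) hx0.le
    have e : x * (30 * ρ) = 30 := by linear_combination 30 * hxρ
    linarith
  refine ⟨?_, ?_, ?_, ?_, ?_⟩
  · intro k
    show |x * l.pos τ k - x * m.pos τ k| ≤ 100 * 1
    rw [← mul_sub]
    linarith [hD k]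
  · intro k
    show |l.s k - m.s k| ≤ 100 * 1
    have := abs_sub (l.s k) (m.s k)
    linarith [rs' k, rs k]
  · rw [hz_eq]
    show _ ≤ 100 * max ((1 : ℝ) ^ 2) 0
    have hm : max ((1 : ℝ) ^ 2) 0 = 1 := by norm_num
    rw [hm, Fin.sum_univ_two]
    have e : x * (l.hgt τ - m.hgt τ - ((l.pos τ 0 - m.pos τ 0) * m.s 0 + (l.pos τ 1 - m.pos τ 1) * m.s 1)) =
        x * (l.hgt τ - m.hgt τ) - (x * (l.pos τ 0 - m.pos τ 0) * m.s 0 + x * (l.pos τ 1 - m.pos τ 1) * m.s 1) := by ring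
    rw [e]
    have g1 : |x * (l.hgt τ - m.hgt τ)| ≤ 1 := by
      rw [abs_mul, abs_of_pos hx0]
      have := mul_le_mul_of_nonneg_left f2 hx0.le
      linarith
    have g2 : ∀ k, |x * (l.pos τ k - m.pos τ k) * m.s k| ≤ 30 := by
      intro k
      rw [abs_mul]
      have := mul_le_mul (hD k) (rs k) (abs_nonneg _) (by norm_num)
      linarith
    have a1 := abs_sub (x * (l.hgt τ - m.hgt τ)) (x * (l.pos τ 0 - m.pos τ 0) * m.s 0 + x * (l.pos τ 1 - m.pos τ 1) * m.s 1)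
    have a2 := abs_add_le (x * (l.pos τ 0 - m.pos τ 0) * m.s 0) (x * (l.pos τ 1 - m.pos τ 1) * m.s 1)
    linarith [g2 0, g2 1]
  · rw [g0_eq B q m l hx0.ne' hlen0.ne' n0 n1]
    show _ ≤ 100 * (1 / 2 : ℝ) ^ q
    rw [← hu, abs_div, abs_mul, abs_of_pos hx0, abs_of_pos hlen0, div_le_iff₀ hlen0]
    have h1 := mul_le_mul_of_nonneg_left f3 hx0.le
    have e : x * (u * ρ) = u := by linear_combination u * hxρ
    rw [e] at h1
    nlinarith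
  · rw [g1_eq B q m l hx0.ne' hlen0.ne' n0 n1]
    show _ ≤ 100 * (1 / 2 : ℝ) ^ q
    rw [← hu, abs_div, abs_of_pos hlen0, div_le_iff₀ hlen0]
    have h1 := abs_sub (B.g1 l.y l.s l.z) (B.g1 m.y m.s m.z)
    nlinarith

section env

variable {Ω : Type} [Fintype Ω] {E : Env Ω} {P : Law Ω}

omit [Fintype Ω] in
theorem rd_mem {t : ℝ} (a : ℕ) (h0 : 0 ≤ t) (h1 : t ≤ 1) : 0 ≤ rd a t ∧ rd a t ≤ 1 := by
  refine ⟨?_, (rd_le a t).trans h1⟩
  unfold rd fl1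
  have : (0 : ℝ) ≤ 2 ^ a * t := by positivity
  have h2 : 0 ≤ ⌊(2 : ℝ) ^ a * t⌋ := Int.floor_nonneg.2 this
  have h3 : (0 : ℝ) ≤ (⌊(2 : ℝ) ^ a * t⌋ : ℝ) := by exact_mod_cast h2
  positivity

/-- the box centred at a ray of the support is a label of all the rays with the same state -/
theorem wb_ok (hS : E.Supp P) {ω ω' : Ω} (hω : 0 < P.w ω) (hω' : 0 < P.w ω')
    (h : E.Zh E.h ω' = E.Zh E.h ω) {len θ' : ℝ} (hlen : 1 / 2 ≤ len)
    (n0 : E.B0.nn (E.l ω).y (E.l ω).s 0 = -(len * Real.sin θ'))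
    (n1 : E.B0.nn (E.l ω).y (E.l ω).s 1 = len * Real.cos θ') :
    LbOk 100 E.L E.h (wb E.B0 E.q (2 ^ E.h) (rd E.h (E.t ω)) len θ' (E.l ω)) (E.l ω') (E.t ω') := by
  set x : ℝ := 2 ^ E.h with hx
  set τ : ℝ := rd E.h (E.t ω) with hτ
  have hx1 : 1 ≤ x := one_le_pow₀ (by norm_num)
  have hx0 : 0 < x := by linarith
  set ρ : ℝ := (1 / 2 : ℝ) ^ E.h with hρ
  have hxρ : x * ρ = 1 := by
    rw [hx, hρ, ← mul_pow]
    norm_num
  have hρ0 : 0 ≤ ρ := by positivity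
  have hlen0 : 0 < len := by linarith
  obtain ⟨⟨rl, rs, rz⟩, t0, t1⟩ := hS.ok ω hω
  obtain ⟨⟨rl', rs', rz'⟩, t0', t1'⟩ := hS.ok ω' hω'
  obtain ⟨i1, i2, i3, i4, i5⟩ := (E.B0.in_iff 0 _ _ _).1 (hS.inn ω hω)
  obtain ⟨j1, j2, j3, j4, j5⟩ := (E.B0.in_iff 0 _ _ _).1 (hS.inn ω' hω')
  rw [hS.u2] at i1 i2 j1 j2
  rw [hS.u1] at i4 i5 j4 j5
  obtain ⟨τ0, τ1⟩ := rd_mem E.h t0 t1
  rw [← hτ] at τ0 τ1
  -- the state
  have ht : fl1 E.h (E.t ω') = fl1 E.h (E.t ω) := congrArg Prod.fst h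
  have hrd : rd E.h (E.t ω') = τ := by
    rw [hτ]
    unfold rd
    rw [ht]
  have hz : ∀ k, |(E.X ω' k + τ * E.Q ω' k) - (E.X ω k + τ * E.Q ω k)| ≤ ρ := by
    intro k
    have := congrFun (congrArg Prod.snd h) k
    simp only [Env.Zh, hrd] at this
    exact Apx.fl1_close this
  have z0 := hz 0
  have z1 := hz 1
  have z2 := hz 2
  have f1 : |fw E.B0.θ (fun k => (E.l ω').pos τ k - (E.l ω).pos τ k)| ≤ 2 * ρ := by
    have e : (E.X ω' 0 + τ * E.Q ω' 0) - (E.X ω 0 + τ * E.Q ω 0) =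
        fw E.B0.θ (fun k => (E.l ω').pos τ k - (E.l ω).pos τ k) / 2 := by
      simp only [Env.X, Env.Q, Matrix.cons_val_zero, fw, Ry.pos]
      ring
    rw [e, abs_div, abs_of_pos (by norm_num : (0 : ℝ) < 2)] at z0
    linarith
  have f2 : |(E.l ω').hgt τ - (E.l ω).hgt τ| ≤ ρ := by
    have e : (E.X ω' 1 + τ * E.Q ω' 1) - (E.X ω 1 + τ * E.Q ω 1) = (E.l ω').hgt τ - (E.l ω).hgt τ := by
      simp only [Env.X, Env.Q, Matrix.cons_val, Ry.hgt]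
      ring
    rwa [e] at z1
  have f3 : |(E.B0.g0 (E.l ω').y (E.l ω').s (E.l ω').z + τ * E.B0.g1 (E.l ω').y (E.l ω').s (E.l ω').z) -
      (E.B0.g0 (E.l ω).y (E.l ω).s (E.l ω).z + τ * E.B0.g1 (E.l ω).y (E.l ω).s (E.l ω).z)| ≤ (1 / 2 : ℝ) ^ E.q * ρ := by
    have e : (E.X ω' 2 + τ * E.Q ω' 2) - (E.X ω 2 + τ * E.Q ω 2) = 2 ^ E.q *
        ((E.B0.g0 (E.l ω').y (E.l ω').s (E.l ω').z + τ * E.B0.g1 (E.l ω').y (E.l ω').s (E.l ω').z) -
        (E.B0.g0 (E.l ω).y (E.l ω).s (E.l ω).z + τ * E.B0.g1 (E.l ω).y (E.l ω).s (E.l ω).z)) := by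
      simp only [Env.X, Env.Q, Matrix.cons_val]
      ring
    have h2 : (0 : ℝ) < 2 ^ E.q := by positivity
    have h3 : (1 / 2 : ℝ) ^ E.q * 2 ^ E.q = 1 := by
      rw [← mul_pow]
      norm_num
    rw [e, abs_mul, abs_of_pos h2] at z2
    calc _ = (1 / 2 : ℝ) ^ E.q * (2 ^ E.q * |(E.B0.g0 (E.l ω').y (E.l ω').s (E.l ω').z + τ *
          E.B0.g1 (E.l ω').y (E.l ω').s (E.l ω').z) - (E.B0.g0 (E.l ω).y (E.l ω).s (E.l ω).z +
          τ * E.B0.g1 (E.l ω).y (E.l ω).s (E.l ω).z)|) := by rw [← mul_assoc, h3, one_mul]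
      _ ≤ _ := mul_le_mul_of_nonneg_left z2 (by positivity)
  have hq1 : (1 / 2 : ℝ) ^ E.q ≤ 1 := pow_le_one₀ (by norm_num) (by norm_num)
  have hq0 : (0 : ℝ) < (1 / 2 : ℝ) ^ E.q := by positivity
  have hpos := pos_near E.B0 (E.l ω') (E.l ω) τ ρ τ0 τ1 hρ0 hS.α8 hS.κ8 hS.v1 j1 i1 rs' rs f1 f2
    (f3.trans (by nlinarith))
  have hbl : bl E.h (E.l ω') (E.t ω') = blk x τ (E.l ω') := by
    rw [← hrd]
    rfl
  refine ⟨⟨0, E.q, by simp [wb], rfl, Nat.zero_le _, hS.hL⟩, ?_, ?_, ?_⟩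
  · show |E.B0.α / (x * len)| * 1 ≤ 100
    rw [mul_one, abs_div, abs_of_pos (mul_pos hx0 hlen0), div_le_iff₀ (mul_pos hx0 hlen0)]
    have h1 := hS.α8
    have h2 : 1 / 2 ≤ x * len := by nlinarith
    linarith
  · show |(E.B0.κ + 2 * E.B0.α * τ) / len| * 1 ≤ 100
    rw [mul_one, abs_div, abs_of_pos hlen0, div_le_iff₀ hlen0]
    have h3 : |2 * E.B0.α * τ| ≤ 1 / 4 := by
      rw [abs_mul, abs_mul, abs_of_nonneg τ0, abs_of_pos (by norm_num : (0 : ℝ) < 2)]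
      nlinarith [abs_nonneg E.B0.α, hS.α8]
    have h4 := abs_add_le E.B0.κ (2 * E.B0.α * τ)
    have h5 := hS.κ8
    linarith
  · rw [hbl]
    exact wb_bin hx0 hxρ hlen rfl rs rs' i5 j5 f2 f3 hpos n0 n1

/-- **the box of the state** : a label of level `h`, shape `(0, q)`, a function of `Zh h` -/
theorem exists_w (hS : E.Supp P) : ∃ w : (ℤ × (Fin 3 → ℤ)) → Cbx, ∀ ω, 0 < P.w ω →
    LbOk 100 E.L E.h (w (E.Zh E.h ω)) (E.l ω) (E.t ω) ∧ (w (E.Zh E.h ω)).u2 = (1 / 2 : ℝ) ^ 0 ∧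
      (w (E.Zh E.h ω)).u1 = (1 / 2 : ℝ) ^ E.q := by
  classical
  have H : ∀ ζ : ℤ × (Fin 3 → ℤ), ∃ W : Cbx, ∀ ω, 0 < P.w ω → E.Zh E.h ω = ζ →
      LbOk 100 E.L E.h W (E.l ω) (E.t ω) ∧ W.u2 = (1 / 2 : ℝ) ^ 0 ∧ W.u1 = (1 / 2 : ℝ) ^ E.q := by
    intro ζ
    by_cases h : ∃ ω, 0 < P.w ω ∧ E.Zh E.h ω = ζ
    · obtain ⟨ω, hω, e⟩ := h
      obtain ⟨i1, i2, i3, i4, i5⟩ := (E.B0.in_iff 0 _ _ _).1 (hS.inn ω hω)
      rw [hS.u1] at i4 i5
      have hq1 : (1 / 2 : ℝ) ^ E.q ≤ 1 := pow_le_one₀ (by norm_num) (by norm_num)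
      obtain ⟨len, θ', g1, g2, g3⟩ := len_bd (B := E.B0) (m := E.l ω) (i4.trans hq1) (i5.trans hq1) hS.α8 hS.κ8
      refine ⟨wb E.B0 E.q (2 ^ E.h) (rd E.h (E.t ω)) len θ' (E.l ω), fun ω' hω' e' => ⟨?_, ?_, rfl⟩⟩
      · exact wb_ok hS hω hω' (e'.trans e.symm) g1 g2 g3
      · simp [wb]
    · exact ⟨⟨0, 0, 0, 0, 0, 0, 0, 0⟩, fun ω hω e => absurd ⟨ω, hω, e⟩ h⟩
  choose w hw using H
  exact ⟨w, fun ω hω => hw _ ω hω rfl⟩

end env

end Vale.Agent.P106.U.H864
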